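import Vale.Agent.P283.Z647.Cone

/-!
Carathéodory's theorem for cones.
-/

set_option linter.all false

namespace Vale.Agent.P283.F647

open Finset

theorem cone_car {m N : ℕ} (v : Fin N → Fin m → ℤ) (a : Fin m → ℤ) (ha : Z647.InCone v a) :
    ∃ I : Finset (Fin N), I.card ≤ m + 1 ∧ ∃ c : Fin N → ℚ, (∀ j, 0 ≤ c j) ∧
      (∀ j, j ∉ I → c j = 0) ∧ ∀ k, (a k : ℚ) = ∑ j, c j * v j k := by
  classical
  obtain ⟨c, hc, hac⟩ := ha
  set s : ℚ := ∑ j, c j with hs
  have hs0 : 0 ≤ s := Finset.sum_nonneg fun j _ => hc j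
  rcases eq_or_lt_of_le hs0 with h0 | hpos
  · refine ⟨∅, by simp, fun _ => 0, fun _ => le_rfl, fun _ _ => rfl, fun k => ?_⟩
    have h1 : ∀ j, c j = 0 := by
      have h2 := (Finset.sum_eq_zero_iff_of_nonneg fun j _ => hc j).1 h0.symm
      exact fun j => h2 j (Finset.mem_univ j)
    rw [hac k]
    exact Finset.sum_congr rfl fun j _ => by rw [h1 j]
  · let vQ : Fin N → Fin m → ℚ := fun j k => v j k
    let p : Fin m → ℚ := fun k => a k / s
    have hp : p ∈ convexHull ℚ (Set.range vQ) := by
      have h1 : p = ∑ j, (c j / s) • vQ j := by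
        funext k
        simp only [p, Finset.sum_apply, Pi.smul_apply, smul_eq_mul, vQ]
        rw [hac k, Finset.sum_div]
        exact Finset.sum_congr rfl fun j _ => by ring
      rw [h1]
      refine (convex_convexHull ℚ _).sum_mem (fun j _ => div_nonneg (hc j) hs0) ?_ fun j _ =>
        subset_convexHull ℚ _ ⟨j, rfl⟩
      rw [← Finset.sum_div, ← hs, div_self hpos.ne']
    rw [convexHull_eq_union] at hp
    simp only [Set.mem_iUnion] at hp
    obtain ⟨t, hts, hind, hpt⟩ := hp
    have hcard : t.card ≤ m + 1 := by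
      have h1 := hind.card_le_finrank_succ
      rw [Fintype.card_coe] at h1
      refine h1.trans (Nat.succ_le_succ ?_)
      have h2 := Submodule.finrank_le (vectorSpan ℚ (Set.range ((↑) : t → Fin m → ℚ)))
      rw [Module.finrank_fin_fun] at h2
      exact h2
    rw [Finset.mem_convexHull] at hpt
    obtain ⟨w, hw0, hw1, hwp⟩ := hpt
    haveI : Nonempty (Fin N) := by
      by_contra h
      rw [not_nonempty_iff] at h
      rw [hs, Finset.univ_eq_empty, Finset.sum_empty] at hpos
      exact lt_irrefl _ hpos
    choose! f hf using fun y (hy : y ∈ (t : Set (Fin m → ℚ))) => hts hy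
    have hf' : ∀ y ∈ t, vQ (f y) = y := fun y hy => hf y hy
    refine ⟨t.image f, Finset.card_image_le.trans hcard,
      fun j => ∑ y ∈ t, if f y = j then s * w y else 0, fun j => ?_, fun j hj => ?_, fun k => ?_⟩
    · refine Finset.sum_nonneg fun y hy => ?_
      split_ifs
      · exact mul_nonneg hs0 (hw0 y hy)
      · exact le_rfl
    · refine Finset.sum_eq_zero fun y hy => ?_
      rw [if_neg]
      rintro rfl
      exact hj (Finset.mem_image_of_mem f hy)
    · have h1 : ∑ j, (∑ y ∈ t, if f y = j then s * w y else 0) * (v j k : ℚ) =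
          ∑ y ∈ t, s * w y * (v (f y) k : ℚ) := by
        simp only [Finset.sum_mul, ite_mul, zero_mul]
        rw [Finset.sum_comm]
        refine Finset.sum_congr rfl fun y _ => ?_
        rw [Finset.sum_ite_eq]
        simp
      rw [h1]
      have h2 : p k = ∑ y ∈ t, w y * y k := by
        have h3 := congrFun hwp k
        rw [Finset.centerMass_eq_of_sum_1 _ _ hw1] at h3
        rw [← h3]
        simp [Finset.sum_apply]
      have h3 : (a k : ℚ) = s * p k := by
        simp only [p]
        field_simp
      rw [h3, h2, Finset.mul_sum]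
      refine Finset.sum_congr rfl fun y hy => ?_
      have h4 : (v (f y) k : ℚ) = y k := congrFun (hf' y hy) k
      rw [h4]; ring

end Vale.Agent.P283.F647
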