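import Vale.Agent.P283.F647.Pt
import Vale.Agent.P283.F647.Car
import Vale.Agent.P283.Z647.Expos2

/-!
The exponents of the complement, for cones which may contain lines.
-/

set_option linter.all false

namespace Vale.Agent.P283.F647

open MvPolynomial
open Finset hiding val
open Vale.Agent.P283.H647 (ResForm HypData)
open Vale.Agent.P283.Z647 (NonMonoZ LcZ RegZ minWt ordMono wtZ toricDisc IsSubdivision IsMinZ
  isMinZ_minWt ordMono_le ordMono_attained psi_nonmonoZ Phi doignon cone_dual)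

variable {m s M N : ℕ}

/-- An exponent as an integral vector. -/
def toZ (α : Fin m →₀ ℕ) : Fin m → ℤ := fun k => (α k : ℤ)

theorem toZ_inj : Function.Injective (toZ (m := m)) := by
  intro α β h
  ext k
  have h1 : ((α k : ℕ) : ℤ) = β k := congrFun h k
  exact_mod_cast h1

theorem pr_toZ (α : Fin m →₀ ℕ) (a : Fin m → ℤ) : pr (toZ α) a = wtZ a α :=
  Finset.sum_congr rfl fun k _ => mul_comm _ _

/-- The functionals attached to exponents of the `g i`. -/
def gz (q : ℕ) (cq : Fin s → ℕ) (β : Fin s → (Fin m →₀ ℕ)) : Fin m → ℤ :=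
  fun k => q - ∑ i, cq i * (β i k : ℤ)

theorem pr_gz (q : ℕ) (cq : Fin s → ℕ) (β : Fin s → (Fin m →₀ ℕ)) (a : Fin m → ℤ) :
    pr (gz q cq β) a = q * ∑ k, a k - ∑ i, cq i * wtZ a (β i) := by
  unfold pr gz wtZ
  simp only [sub_mul, Finset.sum_sub_distrib, Finset.sum_mul, Finset.mul_sum]
  congr 1
  rw [Finset.sum_comm]
  exact Finset.sum_congr rfl fun i _ => Finset.sum_congr rfl fun k _ => by ring

theorem rel_iff {f : MvPolynomial (Fin m) ℂ} {a : Fin m → ℤ} :
    Rel (f.support.image toZ) a ↔ NonMonoZ f a := by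
  classical
  constructor
  · rintro ⟨α, hα, β, hβ, hne, heq, hmin⟩
    obtain ⟨α, hα0, rfl⟩ := Finset.mem_image.1 hα
    obtain ⟨β, hβ0, rfl⟩ := Finset.mem_image.1 hβ
    clear hα hβ
    rename' hα0 => hα, hβ0 => hβ
    rw [pr_toZ, pr_toZ] at heq
    refine ⟨wtZ a α, ⟨⟨α, hα, rfl⟩, fun γ hγ => ?_⟩, α, hα, β, hβ, fun h => hne (by rw [h]),
      rfl, heq.symm⟩
    have := hmin _ (Finset.mem_image_of_mem _ hγ)
    rwa [pr_toZ, pr_toZ] at this
  · rintro ⟨μ, ⟨-, hmin⟩, α, hα, β, hβ, hne, h1, h2⟩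
    refine ⟨_, Finset.mem_image_of_mem _ hα, _, Finset.mem_image_of_mem _ hβ,
      fun h => hne (toZ_inj h), by rw [pr_toZ, pr_toZ, h1, h2], fun γ hγ => ?_⟩
    obtain ⟨γ, hγ0, rfl⟩ := Finset.mem_image.1 hγ
    rw [pr_toZ, pr_toZ, h1]
    exact hmin γ hγ0

theorem exists_pointP (e N q : ℕ) (hq : 0 < q) {ε : ℝ} (hε : 0 < ε) : ∃ k₀ : ℕ, 0 < k₀ ∧
    ∀ (L : Type) [Field L] [Algebra ℂ L] {s M : ℕ} (y : Fin (e + 2) → L)
      (f : MvPolynomial (Fin (e + 2)) ℂ) (g : Fin s → MvPolynomial (Fin (e + 2)) ℂ)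
      (v : Fin N → Fin (e + 2) → ℤ) (H : HypData y f) (D' : Fin (e + 1) → Derivation ℂ L L)
      (h : L) (R : ResForm y f D' h) (hg : ∀ i, aeval y (g i) ≠ 0)
      (hnd : ∀ a, Z647.InCone v a → RegZ f a)
      (c : Fin s → ℚ) (cq : Fin s → ℕ) (hcq : ∀ i, (cq i : ℚ) = q * c i) (r : ℕ) (hr : 0 < r)
      (E : Fin (M + 1) → Fin (e + 2) → ℤ)
      (κ : Fin N → ℕ) (hκ : ∀ j, (κ j : ℚ) = q * toricDisc f g c r E (v j))
      (hκq : ∀ j, κ j ≤ q) (hlc : LcZ v y D' h g c r E ε) (k : ℕ) (hk : k₀ ∣ k) (hk0 : 0 < k),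
      ∀ a, Z647.InCone v a → a ≠ 0 → NonMonoZ f a → ∃ x : Fin (e + 2) → ℤ,
        (∀ j, k * (q * (∑ i, v j i - minWt f (v j)) - ∑ i, cq i * minWt (g i) (v j) - κ j) ≤
            ∑ i, x i * v j i) ∧
          ∑ i, x i * a i < k * (q * (∑ i, a i - minWt f a) - ∑ i, cq i * minWt (g i) a) := by
  classical
  have hqR : (0 : ℝ) < q := by exact_mod_cast hq
  obtain ⟨k₀, hk₀, hmain⟩ := point_abs N q (δ := q * ε) (mul_pos hqR hε) hq
  refine ⟨k₀, hk₀, ?_⟩
  intro L _ _ s M y f g v H D' h R hg hnd c cq hcq r hr E κ hκ hκq hlc k hk hk0 a ha ha0 hnm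
  have hg0 : ∀ i, g i ≠ 0 := fun i h0 => hg i (by rw [h0, map_zero])
  have hrQ : (0 : ℚ) < r := by exact_mod_cast hr
  have hrR : (0 : ℝ) < r := by exact_mod_cast hr
  have hqQ : (0 : ℚ) < q := by exact_mod_cast hq
  have hc0 : ∀ i, 0 ≤ c i := by
    intro i
    have h1 : (0 : ℚ) ≤ q * c i := by rw [← hcq i]; positivity
    exact nonneg_of_mul_nonneg_right h1 hqQ
  -- the largest value of the functionals
  let top : (Fin (e + 2) → ℤ) → ℤ := fun a =>
    q * (∑ k, a k - minWt f a) - ∑ i, cq i * minWt (g i) a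
  let P : Finset (Fin (e + 2) → ℤ) := f.support.image toZ
  let Gs : Finset (Fin (e + 2) → ℤ) :=
    (Fintype.piFinset (fun i => (g i).support)).image (gz q cq)
  have htop : ∀ a, ∀ α ∈ P, ∀ μ ∈ Gs, pr μ a - q * pr α a ≤ top a := by
    intro a α hα μ hμ
    obtain ⟨α, hα0, rfl⟩ := Finset.mem_image.1 hα
    obtain ⟨β, hβ, rfl⟩ := Finset.mem_image.1 hμ
    rw [Fintype.mem_piFinset] at hβ
    rw [pr_toZ, pr_gz]
    have h1 := (isMinZ_minWt H.f0 a).2 _ hα0
    have h2 : ∑ i, (cq i : ℤ) * minWt (g i) a ≤ ∑ i, (cq i : ℤ) * wtZ a (β i) :=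
      Finset.sum_le_sum fun i _ => mul_le_mul_of_nonneg_left
        ((isMinZ_minWt (hg0 i) a).2 _ (hβ i)) (by positivity)
    have h3 : (q : ℤ) * minWt f a ≤ q * wtZ a α :=
      mul_le_mul_of_nonneg_left h1 (by positivity)
    simp only [top]
    linarith
  have hatt : ∀ a, ∃ μ ∈ Gs, pr μ a = q * ∑ k, a k - ∑ i, cq i * minWt (g i) a := by
    intro a
    choose β hβ hβ' using fun i => (isMinZ_minWt (hg0 i) a).1
    refine ⟨gz q cq β, Finset.mem_image_of_mem _ (Fintype.mem_piFinset.2 hβ), ?_⟩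
    rw [pr_gz]
    simp only [hβ']
  let T : Fin N → ℤ := fun j => top (v j) - κ j
  have hT : ∀ j, (T j : ℚ) = q * ((ordMono E (v j) : ℚ) / r) := by
    intro j
    have h1 := hκ j
    simp only [T, top]
    push_cast
    rw [h1]
    unfold toricDisc
    have h2 : ∑ i, (cq i : ℚ) * (minWt (g i) (v j) : ℚ) = q * ∑ i, c i * minWt (g i) (v j) := by
      rw [Finset.mul_sum]
      exact Finset.sum_congr rfl fun i _ => by rw [hcq]; ring
    rw [h2]; ring
  have D : IsData q (q * ε) P Gs (Finset.univ.image E) r v T κ :=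
    { q0 := hq
      δ0 := mul_pos hqR hε
      r0 := hr
      ne := ⟨E 0, Finset.mem_image_of_mem _ (Finset.mem_univ _)⟩
      inj := by
        intro i j hij
        have h1 : (κ i : ℚ) = κ j := by rw [hκ, hκ, hij]
        have h2 : κ i = κ j := by exact_mod_cast h1
        simp only [T, hij, h2]
      top := by
        intro j α hα μ hμ
        have := htop (v j) α hα μ hμ
        simp only [T]
        omega
      topE := by
        intro j
        obtain ⟨α, hα, hα'⟩ := (isMinZ_minWt H.f0 (v j)).1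
        obtain ⟨μ, hμ, hμ'⟩ := hatt (v j)
        refine ⟨_, Finset.mem_image_of_mem _ hα, μ, hμ, ?_⟩
        rw [hμ', pr_toZ, hα']
        simp only [T, top]
        ring
      κq := hκq
      feas := by
        intro j x hx
        obtain ⟨i, -, rfl⟩ := Finset.mem_image.1 hx
        have h1 := hT j
        have h2 : (r : ℚ) * T j = q * ordMono E (v j) := by rw [h1]; field_simp
        have h3 : (r : ℤ) * T j = q * ordMono E (v j) := by exact_mod_cast h2
        rw [h3]
        exact mul_le_mul_of_nonneg_left (ordMono_le E (v j) i) (by positivity)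
      lc := by
        intro A hA hA0 hrel α hα hmin
        obtain ⟨α, hα0, rfl⟩ := Finset.mem_image.1 hα
        have h1 := psi_nonmonoZ H R hg hc0 hε hlc A hA (hnd A hA) (rel_iff.1 hrel) hA0 α hα0
          (fun β hβ => by
            have := hmin _ (Finset.mem_image_of_mem _ hβ)
            rwa [pr_toZ, pr_toZ] at this)
        obtain ⟨μ, hμ, hμ'⟩ := hatt A
        obtain ⟨i, hi⟩ := ordMono_attained E A
        refine ⟨μ, hμ, E i, Finset.mem_image_of_mem _ (Finset.mem_univ _), ?_⟩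
        have h2 : (pr μ A : ℝ) = q * ∑ k, (A k : ℝ) - q * ∑ i, (c i : ℝ) * minWt (g i) A := by
          have h3 := congrArg (Int.cast : ℤ → ℝ) hμ'
          push_cast at h3
          rw [h3]
          congr 1
          rw [Finset.mul_sum]
          refine Finset.sum_congr rfl fun i _ => ?_
          have h4 : (cq i : ℝ) = q * (c i : ℝ) := by exact_mod_cast hcq i
          rw [h4]; ring
        have h3 : (pr (E i) A : ℝ) = ordMono E A := by
          have : pr (E i) A = ordMono E A := by rw [hi]; rfl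
          exact_mod_cast this
        rw [pr_toZ, h2, h3]
        unfold Phi at h1
        have h4 := mul_le_mul_of_nonneg_left h1 (mul_pos hqR hrR).le
        have h5 : (q : ℝ) * r * (∑ j, (A j : ℝ) - wtZ A α - (∑ i, (c i : ℝ) * minWt (g i) A +
            (ordMono E A : ℝ) / r)) = r * (q * ∑ k, (A k : ℝ) - q * ∑ i, (c i : ℝ) * minWt (g i) A -
            q * wtZ A α) - q * ordMono E A := by
          field_simp
          ring
        rw [h5] at h4
        linarith }
  obtain ⟨X, hX, α', hα', μ, hμ, hlt⟩ := hmain (e + 2) P Gs _ r v T κ D k hk hk0 a ha ha0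
    (rel_iff.2 hnm)
  refine ⟨X, fun j => hX j, ?_⟩
  have h1 := htop a α' hα' μ hμ
  have h2 : (k : ℤ) * (pr μ a - q * pr α' a) ≤ k * top a :=
    mul_le_mul_of_nonneg_left h1 (by positivity)
  exact lt_of_lt_of_le hlt h2

theorem exists_exposF (e q : ℕ) (hq : 0 < q) {ε : ℝ} (hε : 0 < ε) : ∃ k₀ : ℕ, 0 < k₀ ∧
    ∀ (L : Type) [Field L] [Algebra ℂ L] {s M N : ℕ} (y : Fin (e + 2) → L)
      (f : MvPolynomial (Fin (e + 2)) ℂ) (g : Fin s → MvPolynomial (Fin (e + 2)) ℂ)
      (v : Fin N → Fin (e + 2) → ℤ) (H : HypData y f) (D' : Fin (e + 1) → Derivation ℂ L L)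
      (h : L) (R : ResForm y f D' h) (hg : ∀ i, aeval y (g i) ≠ 0)
      (hnd : ∀ a, Z647.InCone v a → RegZ f a)
      (c : Fin s → ℚ) (cq : Fin s → ℕ) (hcq : ∀ i, (cq i : ℚ) = q * c i) (r : ℕ) (hr : 0 < r)
      (E : Fin (M + 1) → Fin (e + 2) → ℤ) (hsub : IsSubdivision v E)
      (κ : Fin N → ℕ) (hκ : ∀ j, (κ j : ℚ) = q * toricDisc f g c r E (v j))
      (hκq : ∀ j, κ j ≤ q) (hlc : LcZ v y D' h g c r E ε) (k : ℕ) (hk : k₀ ∣ k) (hk0 : 0 < k),
      ∃ Ee : Finset (Fin (e + 2) → ℤ), Ee.Nonempty ∧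
        (∀ γ ∈ Ee, ∀ a, Z647.InCone v a → NonMonoZ f a →
          (k : ℚ) * q * ((ordMono E a : ℚ) / r) ≤ ((∑ i, γ i * a i : ℤ) : ℚ)) ∧
        ∀ a, Z647.InCone v a → a ≠ 0 → NonMonoZ f a → ∃ γ ∈ Ee,
          ∑ i, γ i * a i < k * (q * (∑ i, a i - minWt f a) - ∑ i, cq i * minWt (g i) a) := by
  classical
  choose k₀ hk₀ hmain using fun N' : ℕ => exists_pointP e N' q hq hε
  refine ⟨∏ N' ∈ Finset.range (2 ^ (e + 2) + (e + 2 + 1) + 1), k₀ N',
    Finset.prod_pos fun N' _ => hk₀ N', ?_⟩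
  intro L _ _ s M N y f g v H D' h R hg hnd c cq hcq r hr E hsub κ hκ hκq hlc k hk hk0
  by_cases hex : ∃ a, Z647.InCone v a ∧ a ≠ 0 ∧ NonMonoZ f a
  swap
  · -- no weights
    push Not at hex
    refine ⟨{0}, Finset.singleton_nonempty _, ?_, fun a ha ha0 hnm => absurd hnm (hex a ha ha0)⟩
    intro γ hγ a ha hnm
    rw [Finset.mem_singleton] at hγ
    subst hγ
    have ha0 : a = 0 := by
      by_contra hne
      exact hex a ha hne hnm
    subst ha0
    have h1 : ordMono E 0 = 0 := by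
      obtain ⟨i, hi⟩ := ordMono_attained E 0
      rw [hi]; simp
    rw [h1]; simp
  let top : (Fin (e + 2) → ℤ) → ℤ := fun a =>
    q * (∑ k, a k - minWt f a) - ∑ i, cq i * minWt (g i) a
  let T : Fin N → ℤ := fun j => top (v j) - κ j
  have hT : ∀ j, (T j : ℚ) = q * ((ordMono E (v j) : ℚ) / r) := by
    intro j
    have h1 := hκ j
    simp only [T, top]
    push_cast
    rw [h1]
    unfold toricDisc
    have h2 : ∑ i, (cq i : ℚ) * (minWt (g i) (v j) : ℚ) = q * ∑ i, c i * minWt (g i) (v j) := by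
      rw [Finset.mul_sum]
      exact Finset.sum_congr rfl fun i _ => by rw [hcq]; ring
    rw [h2]; ring
  -- the pointwise statement
  have hpoint : ∀ a, Z647.InCone v a → a ≠ 0 → NonMonoZ f a → ∃ x : Fin (e + 2) → ℤ,
      (∀ j, k * T j ≤ ∑ i, x i * v j i) ∧ ∑ i, x i * a i < k * top a := by
    intro a ha ha0 hnm
    by_contra hno
    push Not at hno
    obtain ⟨I, hI, hI'⟩ := doignon (ι := Option (Fin N))
      (fun o => o.elim a (fun j => -(v j))) (fun o => o.elim (k * top a - 1) (fun j => -(k * T j)))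
      (by
        intro x
        by_cases hx : ∀ j, k * T j ≤ ∑ i, x i * v j i
        · refine ⟨none, ?_⟩
          have h1 := hno x hx
          simp only [Option.elim]
          rw [Finset.sum_congr rfl fun i _ => mul_comm (a i) (x i)]
          omega
        · push Not at hx
          obtain ⟨j, hj⟩ := hx
          refine ⟨some j, ?_⟩
          simp only [Option.elim, Pi.neg_apply, neg_mul, Finset.sum_neg_distrib]
          rw [Finset.sum_congr rfl fun i _ => mul_comm (v j i) (x i)]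
          omega)
    obtain ⟨Ic, hIc, cc, hcc, hcc', hac⟩ := cone_car v a ha
    let I' : Finset (Fin N) := (Finset.univ.filter fun j => some j ∈ I) ∪ Ic
    have hI'mem : ∀ j, some j ∈ I → j ∈ I' := fun j hj => by simp [I', hj]
    have hI'c : ∀ j ∈ Ic, j ∈ I' := fun j hj => by simp [I', hj]
    have hcard : I'.card ≤ 2 ^ (e + 2) + (e + 2 + 1) := by
      refine le_trans (Finset.card_union_le _ _) (add_le_add (le_trans ?_ hI) hIc)
      exact Finset.card_le_card_of_injOn some (fun j hj => by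
        have := (Finset.mem_filter.1 hj).2
        exact this)
        (fun _ _ _ _ h => Option.some_injective _ h)
    -- no solution of the subsystem
    have hnosol : ∀ x : Fin (e + 2) → ℤ, (∀ j ∈ I', k * T j ≤ ∑ i, x i * v j i) →
        ¬ ∑ i, x i * a i < k * top a := by
      intro x hx hlt
      obtain ⟨o, ho, ho'⟩ := hI' x
      rcases o with _ | j
      · simp only [Option.elim] at ho'
        rw [Finset.sum_congr rfl fun i _ => mul_comm (a i) (x i)] at ho'
        omega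
      · simp only [Option.elim, Pi.neg_apply, neg_mul, Finset.sum_neg_distrib] at ho'
        rw [Finset.sum_congr rfl fun i _ => mul_comm (v j i) (x i)] at ho'
        have := hx j (hI'mem j ho)
        omega
    let N' := I'.card
    let φ : Fin N' → Fin N := fun j => (I'.equivFin.symm j : Fin N)
    have hφ : ∀ j, φ j ∈ I' := fun j => (I'.equivFin.symm j).2
    have hφs : ∀ j ∈ I', ∃ j', φ j' = j := fun j hj => ⟨I'.equivFin ⟨j, hj⟩, by simp [φ]⟩
    let v' : Fin N' → Fin (e + 2) → ℤ := fun j => v (φ j)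
    have hsubc : ∀ b, Z647.InCone v' b → Z647.InCone v b := by
      intro b hb
      apply cone_dual
      intro u hu
      exact hb.pair fun j => hu (φ j)
    have hav' : Z647.InCone v' a := by
      apply cone_dual
      intro u hu
      have h1 : ((∑ k, a k * u k : ℤ) : ℚ) = ∑ j, cc j * ((∑ k, v j k * u k : ℤ) : ℚ) := by
        push_cast
        simp only [hac, Finset.sum_mul, Finset.mul_sum]
        rw [Finset.sum_comm]
        exact Finset.sum_congr rfl fun j _ => Finset.sum_congr rfl fun k _ => by ring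
      have h2 : (0 : ℚ) ≤ ((∑ k, a k * u k : ℤ) : ℚ) := by
        rw [h1]
        refine Finset.sum_nonneg fun j _ => ?_
        by_cases hj : j ∈ Ic
        · obtain ⟨j', rfl⟩ := hφs j (hI'c j hj)
          exact mul_nonneg (hcc _) (by exact_mod_cast hu j')
        · rw [hcc' j hj, zero_mul]
      exact_mod_cast h2
    obtain ⟨x, hx1, hx2⟩ := hmain N' L y f g v' H D' h R hg (fun b hb => hnd b (hsubc b hb))
      c cq hcq r hr E (fun j => κ (φ j)) (fun j => hκ (φ j))
      (fun j => hκq (φ j)) (fun w' m' h1 h2 h3 => hlc w' m' h1 (hsubc _ h2) h3) k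
      (dvd_trans (Finset.dvd_prod_of_mem k₀ (Finset.mem_range.2 (Nat.lt_succ_of_le hcard))) hk)
      hk0 a hav' ha0 hnm
    refine hnosol x (fun j hj => ?_) hx2
    obtain ⟨j', rfl⟩ := hφs j hj
    exact hx1 j'
  -- finitely many exponents
  let P : Set (Fin (e + 2) → ℤ) := {x | ∀ j, k * T j ≤ ∑ i, x i * v j i}
  let F : (Fin (e + 2) → ℤ) → (Fin N → ℕ) := fun x j => (∑ i, x i * v j i - k * T j).toNat
  have hF : ∀ x ∈ P, ∀ j, ((F x j : ℕ) : ℤ) = ∑ i, x i * v j i - k * T j := fun x hx j =>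
    Int.toNat_of_nonneg (by have := hx j; omega)
  obtain ⟨Ff, hFf1, hFf2⟩ := Z647.dickson (F '' P)
  choose! G hG1 hG2 using hFf1
  have hle : ∀ x ∈ P, ∃ γ ∈ Ff.image G, ∀ j, ∑ i, γ i * v j i ≤ ∑ i, x i * v j i := by
    intro x hx
    obtain ⟨z, hz, hzx⟩ := hFf2 (F x) ⟨x, hx, rfl⟩
    refine ⟨G z, Finset.mem_image_of_mem G hz, fun j => ?_⟩
    have h1 := hF x hx j
    have h2 := hF (G z) (hG1 z hz) j
    have h3 : F (G z) j ≤ F x j := by rw [hG2 z hz]; exact hzx j
    have h4 : ((F (G z) j : ℕ) : ℤ) ≤ F x j := by exact_mod_cast h3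
    omega
  have hpairQ : ∀ (a : Fin (e + 2) → ℤ) (t : Fin N → ℚ), (∀ k, (a k : ℚ) = ∑ j, t j * v j k) →
      ∀ γ : Fin (e + 2) → ℤ, ((∑ i, γ i * a i : ℤ) : ℚ) =
        ∑ j, t j * ((∑ i, γ i * v j i : ℤ) : ℚ) := by
    intro a t hta γ
    push_cast
    simp only [hta, Finset.mul_sum]
    rw [Finset.sum_comm]
    exact Finset.sum_congr rfl fun j _ => Finset.sum_congr rfl fun k _ => by ring
  refine ⟨Ff.image G, ?_, ?_, ?_⟩
  · obtain ⟨a, ha, ha0, hnm⟩ := hex
    obtain ⟨x, hx, -⟩ := hpoint a ha ha0 hnm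
    obtain ⟨γ, hγ, -⟩ := hle x hx
    exact ⟨γ, hγ⟩
  · intro γ hγ a ha _
    obtain ⟨z, hz, rfl⟩ := Finset.mem_image.1 hγ
    obtain ⟨t, ht, hta, htE⟩ := hsub a ha
    have h2 : (k : ℚ) * q * ((ordMono E a : ℚ) / r) = ∑ j, t j * (k * T j) := by
      rw [htE]
      simp only [hT, Finset.mul_sum, Finset.sum_div]
      exact Finset.sum_congr rfl fun j _ => by ring
    rw [hpairQ a t hta, h2]
    refine Finset.sum_le_sum fun j _ => mul_le_mul_of_nonneg_left ?_ (ht j)
    exact_mod_cast hG1 z hz j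
  · intro a ha ha0 hnm
    obtain ⟨x, hx, hlt⟩ := hpoint a ha ha0 hnm
    obtain ⟨γ, hγ, hγx⟩ := hle x hx
    refine ⟨γ, hγ, lt_of_le_of_lt ?_ hlt⟩
    obtain ⟨t, ht, hta⟩ := ha
    have h1 : ((∑ i, γ i * a i : ℤ) : ℚ) ≤ ((∑ i, x i * a i : ℤ) : ℚ) := by
      rw [hpairQ a t hta, hpairQ a t hta]
      refine Finset.sum_le_sum fun j _ => mul_le_mul_of_nonneg_left ?_ (ht j)
      exact_mod_cast hγx j
    exact_mod_cast h1

end Vale.Agent.P283.F647
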