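import Vale.Agent.P283.F647.Sep

/-!
The complete case: lattices with a positive relation.
-/

set_option linter.all false

namespace Vale.Agent.P283.F647

open Filter
open Finset hiding val
open Vale.Agent.P283.H647
open Vale.Agent.P283.Z647

variable {ι : Type} [Fintype ι]

/-- The closedness step. -/
theorem limit_stepC (q : ℕ) (hq : 0 < q) (κ : ι → ℕ) {ε : ℝ} (hε : 0 < ε) (U : Ultrafilter ℕ)
    (S : ℕ → Finset (ι → ℕ)) (M : ℕ → AddSubgroup (ι → ℤ))
    (hSM : ∀ i, ∀ α ∈ S i, ∀ β ∈ S i, (fun j => (α j : ℤ) - β j) ∈ M i)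
    (hh : ∀ i, ∀ a : ι → ℝ, (∀ j, 0 < a j) → InDual (M i) a → ¬ Orth (M i) a →
      ∃ α ∈ S i, q * ε ≤ val q κ α a)
    (hsmall : ∀ η : ℝ, 0 < η → ∀ᶠ i in U, ∃ t : ι → ℝ, InDual (M i) t ∧ ¬ Orth (M i) t ∧
      ∀ j, |t j| < η)
    (α₀ : ι → ℕ) (hα₀ : ∀ᶠ i in U, α₀ ∈ S i) (A : Finset (ι → ℕ))
    (hA : ∀ α ∈ A, ∀ᶠ i in U, α ∈ S i)
    (hA' : ∀ α : ι → ℕ, (∀ᶠ i in U, α ∈ S i) → ∃ β ∈ A, β ≤ α)
    (a : ι → ℝ) (ha : ∀ j, 0 < a j) :
    ∃ e : Option ι → ℕ, (fun j => (e (some j) : ℤ) - e none * κ j + e none * (q * α₀ j)) ∈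
      limLat U M ∧ ∃ α ∈ A, ∑ j, (e (some j) : ℝ) * a j < e none * val q κ α a := by
  classical
  by_contra hcon
  push Not at hcon
  -- the maximal value
  have hAne : A.Nonempty := by
    obtain ⟨β, hβ, -⟩ := hA' α₀ hα₀
    exact ⟨β, hβ⟩
  obtain ⟨α₁, hα₁, hmax⟩ := A.exists_max_image (fun α => val q κ α a) hAne
  set V : ℝ := val q κ α₁ a with hV
  have hVle : ∀ α : ι → ℕ, (∀ᶠ i in U, α ∈ S i) → val q κ α a ≤ V := by
    intro α hα
    obtain ⟨β, hβ, hle⟩ := hA' α hα
    refine le_trans ?_ (hmax β hβ)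
    unfold val
    refine Finset.sum_le_sum fun j _ => mul_le_mul_of_nonneg_left ?_ (ha j).le
    have h1 : (β j : ℝ) ≤ α j := by exact_mod_cast hle j
    have h2 : (0 : ℝ) ≤ q := by positivity
    nlinarith
  -- integral Farkas
  let Λ : AddSubgroup (Option ι → ℤ) :=
    { carrier := {x | (fun j => x (some j) - x none * κ j + x none * (q * α₀ j)) ∈ limLat U M}
      zero_mem' := by
        have : (fun j : ι => (0 : Option ι → ℤ) (some j) - (0 : Option ι → ℤ) none * κ j +
            (0 : Option ι → ℤ) none * (q * α₀ j)) = 0 := by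
          ext j; simp
        show _ ∈ limLat U M
        rw [this]; exact (limLat U M).zero_mem
      add_mem' := by
        intro x y hx hy
        have : (fun j : ι => (x + y) (some j) - (x + y) none * κ j +
            (x + y) none * (q * α₀ j)) =
            (fun j => x (some j) - x none * κ j + x none * (q * α₀ j)) +
            (fun j => y (some j) - y none * κ j + y none * (q * α₀ j)) := by
          ext j; simp only [Pi.add_apply]; ring
        show _ ∈ limLat U M
        rw [this]; exact (limLat U M).add_mem hx hy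
      neg_mem' := by
        intro x hx
        have : (fun j : ι => (-x) (some j) - (-x) none * κ j + (-x) none * (q * α₀ j)) =
            -(fun j => x (some j) - x none * κ j + x none * (q * α₀ j)) := by
          ext j; simp only [Pi.neg_apply]; ring
        show _ ∈ limLat U M
        rw [this]; exact (limLat U M).neg_mem hx }
  obtain ⟨y, hy1, hy2⟩ := int_farkas Λ (fun o => o.elim (-V) a) (by
    intro x hx hx0
    have h1 := hcon (fun o => (x o).toNat) (by
      have h2 : ∀ o, ((x o).toNat : ℤ) = x o := fun o => Int.toNat_of_nonneg (hx0 o)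
      simp only [h2]
      exact hx) α₁ hα₁
    have h2 : ∀ o, (((x o).toNat : ℕ) : ℝ) = x o := fun o => by
      have := Int.toNat_of_nonneg (hx0 o)
      exact_mod_cast this
    simp only [h2] at h1
    rw [Fintype.sum_option]
    simp only [Option.elim]
    linarith)
  set v : ι → ℝ := fun j => y (some j) with hv
  set c₀ : ℝ := - y none with hc₀
  have hc₀V : V ≤ c₀ := by
    have := hy2 none
    simp only [Option.elim] at this
    linarith
  have hvM : ∀ m ∈ limLat U M, ∑ j, v j * m j = 0 := by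
    intro m hm
    have h1 := hy1 (fun o => o.elim 0 m) (by
      show (fun j => m j - 0 * (κ j : ℤ) + 0 * (q * (α₀ j : ℤ))) ∈ limLat U M
      have : (fun j => m j - 0 * (κ j : ℤ) + 0 * (q * (α₀ j : ℤ))) = m := by
        ext j; ring
      rw [this]; exact hm)
    rw [Fintype.sum_option] at h1
    simp only [Option.elim, Int.cast_zero, zero_mul, zero_add] at h1
    rw [← h1]
    exact Finset.sum_congr rfl fun j _ => mul_comm _ _
  have hvα₀ : val q κ α₀ v = c₀ := by
    have h1 := hy1 (fun o => o.elim 1 (fun j => (κ j : ℤ) - q * α₀ j)) (by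
      show (fun j => ((κ j : ℤ) - q * α₀ j) - 1 * (κ j : ℤ) + 1 * (q * (α₀ j : ℤ))) ∈ limLat U M
      have : (fun j => ((κ j : ℤ) - q * α₀ j) - 1 * (κ j : ℤ) + 1 * (q * (α₀ j : ℤ))) = 0 := by
        ext j; simp
      rw [this]; exact (limLat U M).zero_mem)
    rw [Fintype.sum_option] at h1
    simp only [Option.elim, Int.cast_one, one_mul] at h1
    unfold val
    rw [hc₀]
    have h2 : ∑ j, v j * ((κ j : ℝ) - q * α₀ j) =
        ∑ j, (((κ j : ℤ) - q * α₀ j : ℤ) : ℝ) * y (some j) := by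
      refine Finset.sum_congr rfl fun j _ => ?_
      push_cast; ring
    rw [h2]
    linarith
  have hvα : ∀ α : ι → ℕ, (∀ᶠ i in U, α ∈ S i) → val q κ α v = c₀ := by
    intro α hα
    have h1 : (fun j => (α j : ℤ) - α₀ j) ∈ limLat U M := by
      show ∀ᶠ i in U, _ ∈ M i
      filter_upwards [hα, hα₀] with i h2 h3
      exact hSM i α h2 α₀ h3
    have h2 := hvM _ h1
    rw [← hvα₀]
    unfold val
    have h3 : ∑ j, v j * ((κ j : ℝ) - q * α j) = ∑ j, v j * ((κ j : ℝ) - q * α₀ j) -
        q * ∑ j, v j * (((α j : ℤ) - α₀ j : ℤ) : ℝ) := by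
      rw [Finset.mul_sum, ← Finset.sum_sub_distrib]
      refine Finset.sum_congr rfl fun j _ => ?_
      push_cast; ring
    rw [h3, h2]; ring
  set z : ι → ℝ := fun j => a j - v j with hz
  have hz0 : ∀ j, 0 ≤ z j := fun j => by
    have := hy2 (some j)
    simp only [Option.elim] at this
    simp only [hz, hv]; linarith
  have hzα : ∀ α : ι → ℕ, (∀ᶠ i in U, α ∈ S i) → val q κ α z ≤ 0 := by
    intro α hα
    have h1 := val_add q κ α z v
    have h2 : (fun j => z j + v j) = a := by ext j; simp [hz]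
    rw [h2, hvα α hα] at h1
    linarith [hVle α hα]
  obtain ⟨δ, η₂, z', R, hη₂, hmain⟩ := approx_point q hq κ hε v z hz0
    (fun j => by simp only [hz]; linarith [ha j]) c₀
  have hη₂' : (0 : ℝ) < η₂ / 2 := by linarith
  obtain ⟨K, hK⟩ := kron' (ι := ι) hη₂'
  have e1 := ultra_finite U (fun i (α : ι → ℕ) => α ∈ S i) _ (box_nat (ι := ι) R)
  have e2 := ultra_finite U (fun i (m : ι → ℤ) => m ∈ M i) _ (box_int (ι := ι) K)
  obtain ⟨i, ⟨hi1, hi2⟩, hi3⟩ := ((e1.and e2).and (hsmall _ hη₂')).exists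
  obtain ⟨y₁, hy₁1, hy₁2⟩ := hK (M i) (fun j => δ * v j) (by
    intro m hm hmK
    refine ⟨0, ?_⟩
    have h1 : m ∈ limLat U M := (hi2 m hmK).1 hm
    have h2 := hvM m h1
    have h3 : ∑ j, δ * v j * (m j : ℝ) = δ * ∑ j, v j * (m j : ℝ) := by
      rw [Finset.mul_sum]; exact Finset.sum_congr rfl fun j _ => by ring
    rw [h3, h2]; simp)
  -- the approximation is not orthogonal to `M i`
  obtain ⟨y', hy'1, hy'2, hy'3⟩ : ∃ y' : ι → ℝ, InDual (M i) y' ∧ (∀ j, |y' j - δ * v j| < η₂) ∧
      ¬ Orth (M i) (fun j => (z' j : ℝ) + y' j) := by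
    by_cases ho : Orth (M i) (fun j => (z' j : ℝ) + y₁ j)
    · obtain ⟨t, ht1, ht2, ht3⟩ := hi3
      refine ⟨fun j => y₁ j + t j, InDual.add hy₁1 ht1, fun j => ?_, fun ho' => ht2 ?_⟩
      · have h1 := abs_lt.1 (hy₁2 j)
        have h2 := abs_lt.1 (ht3 j)
        rw [abs_lt]
        constructor <;> linarith [h1.1, h1.2, h2.1, h2.2]
      · intro m hm
        have h1 := ho m hm
        have h2 := ho' m hm
        have h3 : ∑ j, ((z' j : ℝ) + (y₁ j + t j)) * (m j : ℝ) =
            ∑ j, ((z' j : ℝ) + y₁ j) * (m j : ℝ) + ∑ j, t j * (m j : ℝ) := by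
          rw [← Finset.sum_add_distrib]
          exact Finset.sum_congr rfl fun j _ => by ring
        rw [h3, h1, zero_add] at h2
        exact h2
    · exact ⟨y₁, hy₁1, fun j => by have := hy₁2 j; linarith, ho⟩
  obtain ⟨hpos, hval⟩ := hmain y' hy'2
  obtain ⟨α, hαS, hα⟩ := hh i (fun j => (z' j : ℝ) + y' j) hpos
    (InDual.add (InDual.int z') hy'1) hy'3
  obtain ⟨hαR, hnot⟩ := hval α hα
  have hαU : ∀ᶠ i' in U, α ∈ S i' := (hi1 α hαR).1 hαS
  exact hnot ⟨hzα α hαU, hvα α hαU⟩

/-- The complete case, for a fixed `κ`. -/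
theorem cpl_fixed (q : ℕ) (hq : 0 < q) (κ : ι → ℕ) {ε : ℝ} (hε : 0 < ε) :
    ∃ k₀ : ℕ, 0 < k₀ ∧ ∀ (S : Finset (ι → ℕ)) (M : AddSubgroup (ι → ℤ)),
      (∀ α ∈ S, ∀ β ∈ S, (fun j => (α j : ℤ) - β j) ∈ M) →
      (∃ ρ : ι → ℝ, (∀ j, 0 < ρ j) ∧ Orth M ρ) →
      (∀ a : ι → ℝ, (∀ j, 0 < a j) → InDual M a → ¬ Orth M a → ∃ α ∈ S, q * ε ≤ val q κ α a) →
      ∀ k : ℕ, k₀ ∣ k → 0 < k → ∀ a : ι → ℝ, (∀ j, 0 < a j) →
        (∃ (r : ℕ) (x : ι → ℕ), (∀ α ∈ S, (fun j => (x j : ℤ) - r * κ j + r * (q * α j)) ∈ M) ∧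
          ∃ α ∈ S, ∑ j, (x j : ℝ) * a j < r * val q κ α a) →
        ∃ e : ι → ℕ, (∀ α ∈ S, (fun j => (e j : ℤ) - k * κ j + k * (q * α j)) ∈ M) ∧
          ∃ α ∈ S, ∑ j, (e j : ℝ) * a j < k * val q κ α a := by
  classical
  by_contra hcon
  push Not at hcon
  have hcon' := fun i : ℕ => hcon (i + 1).factorial (Nat.factorial_pos _)
  choose S M hSM hρ hh k hk hkpos a ha hx hE using hcon'
  choose rr x hxM hxα using hx
  set U : Ultrafilter ℕ := hyperfilter ℕ with hU
  have hUtop : (U : Filter ℕ) ≤ atTop := by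
    rw [← Nat.cofinite_eq_atTop]; exact hyperfilter_le_cofinite
  have hqR : (0 : ℝ) < q := by exact_mod_cast hq
  -- the lattices are nonzero
  have hMne : ∀ i, ∃ m ∈ M i, m ≠ 0 := by
    intro i
    obtain ⟨α, hα, hlt⟩ := hxα i
    refine ⟨_, hxM i α hα, fun h0 => ?_⟩
    have h1 : ∑ j, (x i j : ℝ) * a i j = rr i * val q κ α (a i) := by
      unfold val
      rw [Finset.mul_sum]
      refine Finset.sum_congr rfl fun j _ => ?_
      have h2 := congrFun h0 j
      simp only [Pi.zero_apply] at h2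
      have h3 : (x i j : ℝ) - rr i * κ j + rr i * (q * α j) = 0 := by exact_mod_cast h2
      linear_combination (a i j) * h3
    linarith
  -- Fact 0
  obtain ⟨α₀, hα₀⟩ : ∃ α₀ : ι → ℕ, ∀ᶠ i in U, α₀ ∈ S i := by
    set R : ℕ := 2 * ∑ j, κ j with hR
    have h1 : ∀ i, ∃ α ∈ S i, ∀ j, α j ≤ R := by
      intro i
      obtain ⟨m, hm, hm0⟩ := hMne i
      obtain ⟨j₀, hj₀⟩ : ∃ j, m j ≠ 0 := by
        by_contra hno
        push Not at hno
        exact hm0 (funext hno)
      obtain ⟨w, hw1, hw2, hw3, hw4⟩ : ∃ w : ι → ℤ, (∀ j, 1 ≤ w j) ∧ (∀ j, w j ≤ 2) ∧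
          InDual (M i) (fun j => (w j : ℝ)) ∧ ¬ Orth (M i) (fun j => (w j : ℝ)) := by
        by_cases h1 : Orth (M i) (fun _ => (1 : ℝ))
        · refine ⟨fun j => 1 + if j = j₀ then 1 else 0, fun j => ?_, fun j => ?_, InDual.int _,
            fun h2 => ?_⟩
          · show (1 : ℤ) ≤ 1 + if j = j₀ then 1 else 0
            split_ifs <;> norm_num
          · show (1 : ℤ) + (if j = j₀ then 1 else 0) ≤ 2
            split_ifs <;> norm_num
          · have h3 := h1 m hm
            have h4 := h2 m hm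
            push_cast at h4
            simp only [add_mul, Finset.sum_add_distrib, h3, ite_mul, zero_mul,
              Finset.sum_ite_eq', Finset.mem_univ, if_true, one_mul, zero_add] at h4
            apply hj₀
            simp only [one_mul] at h3
            rw [h3, zero_add] at h4
            exact_mod_cast h4
        · refine ⟨fun _ => 1, fun _ => le_rfl, fun _ => by norm_num, InDual.int _, ?_⟩
          simpa using h1
      obtain ⟨α, hα, hα'⟩ := hh i (fun j => (w j : ℝ)) (fun j => by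
        have h3 : (1 : ℝ) ≤ w j := by exact_mod_cast hw1 j
        show (0 : ℝ) < (w j : ℝ)
        linarith) hw3 hw4
      refine ⟨α, hα, fun j => ?_⟩
      have h2 : val q κ α (fun j => (w j : ℝ)) = ∑ l, (w l : ℝ) * κ l -
          ∑ l, (w l : ℝ) * (q * α l) := by
        unfold val
        rw [← Finset.sum_sub_distrib]
        exact Finset.sum_congr rfl fun l _ => by ring
      rw [h2] at hα'
      have h3 : (w j : ℝ) * (q * α j) ≤ ∑ l, (w l : ℝ) * (q * α l) :=
        Finset.single_le_sum (f := fun l => (w l : ℝ) * (q * (α l : ℝ))) (fun l _ => by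
          have h4 : (0 : ℝ) ≤ w l := by
            have := hw1 l
            exact_mod_cast (by omega : (0 : ℤ) ≤ w l)
          positivity) (Finset.mem_univ j)
      have h4 : (0 : ℝ) < q * ε := mul_pos hqR hε
      have h5 : (1 : ℝ) ≤ q := by exact_mod_cast hq
      have h6 : (1 : ℝ) ≤ w j := by exact_mod_cast hw1 j
      have h7 : (α j : ℝ) ≤ w j * (q * α j) := by
        have h8 : (0 : ℝ) ≤ α j := by positivity
        have h9 : (1 : ℝ) ≤ w j * q := by nlinarith
        nlinarith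
      have h8 : ∑ l, (w l : ℝ) * κ l ≤ ∑ l, 2 * (κ l : ℝ) := by
        refine Finset.sum_le_sum fun l _ => mul_le_mul_of_nonneg_right ?_ (by positivity)
        exact_mod_cast hw2 l
      have h9 : (α j : ℝ) ≤ ∑ l, 2 * (κ l : ℝ) := by linarith
      rw [← Finset.mul_sum] at h9
      rw [hR]; exact_mod_cast h9
    have h2 : ∀ᶠ i in (U : Filter ℕ), ∃ α ∈ {α : ι → ℕ | ∀ j, α j ≤ R}, α ∈ S i :=
      Eventually.of_forall fun i => by
        obtain ⟨α, h3, h4⟩ := h1 i
        exact ⟨α, h4, h3⟩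
    obtain ⟨α₀, -, h3⟩ := (Ultrafilter.eventually_exists_mem_iff (box_nat (ι := ι) R)).1 h2
    exact ⟨α₀, h3⟩
  -- the semigroup
  let H : AddSubmonoid (Option ι → ℕ) :=
    { carrier := {e | (fun j => (e (some j) : ℤ) - e none * κ j + e none * (q * α₀ j)) ∈
        limLat U M}
      zero_mem' := by
        have : (fun j : ι => (((0 : Option ι → ℕ) (some j) : ℕ) : ℤ) -
            (((0 : Option ι → ℕ) none : ℕ) : ℤ) * κ j +
            (((0 : Option ι → ℕ) none : ℕ) : ℤ) * (q * α₀ j)) = 0 := by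
          ext j; simp
        show _ ∈ limLat U M
        rw [this]; exact (limLat U M).zero_mem
      add_mem' := by
        intro x y hx hy
        have : (fun j : ι => (((x + y) (some j) : ℕ) : ℤ) - (((x + y) none : ℕ) : ℤ) * κ j +
            (((x + y) none : ℕ) : ℤ) * (q * α₀ j)) =
            (fun j => (x (some j) : ℤ) - x none * κ j + x none * (q * α₀ j)) +
            (fun j => (y (some j) : ℤ) - y none * κ j + y none * (q * α₀ j)) := by
          ext j; simp only [Pi.add_apply]; push_cast; ring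
        show _ ∈ limLat U M
        rw [this]; exact (limLat U M).add_mem hx hy }
  have hHmem : ∀ e : Option ι → ℕ, e ∈ H ↔
      (fun j => (e (some j) : ℤ) - e none * κ j + e none * (q * α₀ j)) ∈ limLat U M :=
    fun e => Iff.rfl
  obtain ⟨Gen, hGen⟩ : H.FG := AddSubmonoid.fg_of_subtractive (by
    intro x hx y hxy
    rw [hHmem] at hx hxy ⊢
    have h1 := (limLat U M).sub_mem hxy hx
    have h2 : (fun j : ι => (((x + y) (some j) : ℕ) : ℤ) - (((x + y) none : ℕ) : ℤ) * κ j +
            (((x + y) none : ℕ) : ℤ) * (q * α₀ j)) -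
            (fun j => (x (some j) : ℤ) - x none * κ j + x none * (q * α₀ j)) =
            (fun j => (y (some j) : ℤ) - y none * κ j + y none * (q * α₀ j)) := by
      ext j; simp only [Pi.add_apply, Pi.sub_apply]; push_cast; ring
    rwa [h2] at h1)
  have hGenH : ∀ g ∈ Gen, g ∈ H := fun g hg => by
    rw [← hGen]; exact AddSubmonoid.subset_closure hg
  -- from the semigroup to its generators
  have hgen : ∀ (a : ι → ℝ) (V : ℝ), (∃ e ∈ H, ∑ j, (e (some j) : ℝ) * a j < e none * V) →
      ∃ g ∈ Gen, ∑ j, (g (some j) : ℝ) * a j < g none * V := by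
    rintro a V ⟨e, he, hlt⟩
    by_contra hno
    push Not at hno
    have hall : ∀ e ∈ H, (e none : ℝ) * V ≤ ∑ j, (e (some j) : ℝ) * a j := by
      intro e he
      rw [← hGen] at he
      induction he using AddSubmonoid.closure_induction with
      | mem g hg => exact hno g hg
      | zero => simp
      | add x y _ _ hx hy =>
        simp only [Pi.add_apply]
        push_cast
        simp only [add_mul, Finset.sum_add_distrib]
        linarith
    linarith [hall e he]
  have ev3 : ∀ᶠ i in (U : Filter ℕ), ∀ g ∈ Gen,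
      (fun j => (g (some j) : ℤ) - g none * κ j + g none * (q * α₀ j)) ∈ M i := by
    rw [Filter.eventually_all_finset]
    exact fun g hg => (hHmem g).1 (hGenH g hg)
  by_cases hsmall : ∀ η : ℝ, 0 < η → ∀ᶠ i in U, ∃ t : ι → ℝ, InDual (M i) t ∧
      ¬ Orth (M i) t ∧ ∀ j, |t j| < η
  · -- short vectors: impossible
    obtain ⟨A, hA, hA'⟩ := dickson {α : ι → ℕ | ∀ᶠ i in U, α ∈ S i}
    have ev2 : ∀ᶠ i in (U : Filter ℕ), ∀ α ∈ A, α ∈ S i := by
      rw [Filter.eventually_all_finset]
      exact fun α hα => hA α hα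
    obtain ⟨i, ⟨hi3, hi4⟩, hi5⟩ := ((ev3.and hα₀).and ev2).exists
    obtain ⟨ρ, hρpos, hρM⟩ := hρ i
    obtain ⟨e, he, α, hα, hlt⟩ := limit_stepC q hq κ hε U S M hSM hh hsmall α₀ hα₀ A
      (fun α hα => hA α hα) (fun α hα => hA' α hα) ρ hρpos
    obtain ⟨g, hg, hglt⟩ := hgen ρ (val q κ α ρ) ⟨e, he, hlt⟩
    have h1 := hρM _ (hi3 g hg)
    have h2 := hρM _ (hSM i α (hi5 α hα) α₀ hi4)
    have h3 : val q κ α ρ = val q κ α₀ ρ := by
      unfold val
      have h4 : ∑ j, ρ j * ((κ j : ℝ) - q * α j) - ∑ j, ρ j * ((κ j : ℝ) - q * α₀ j) =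
          -q * ∑ j, ρ j * (((α j : ℤ) - α₀ j : ℤ) : ℝ) := by
        rw [← Finset.sum_sub_distrib, Finset.mul_sum]
        refine Finset.sum_congr rfl fun j _ => ?_
        push_cast; ring
      rw [h2, mul_zero] at h4
      linarith
    have h4 : ∑ j, (g (some j) : ℝ) * ρ j = g none * val q κ α₀ ρ := by
      unfold val
      rw [Finset.mul_sum]
      have h5 : ∑ j, (g (some j) : ℝ) * ρ j - ∑ j, (g none : ℝ) * (ρ j * ((κ j : ℝ) - q * α₀ j)) =
          ∑ j, ρ j * (((g (some j) : ℤ) - g none * κ j + g none * (q * α₀ j) : ℤ) : ℝ) := by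
        rw [← Finset.sum_sub_distrib]
        refine Finset.sum_congr rfl fun j _ => ?_
        push_cast; ring
      rw [h1] at h5
      linarith
    rw [h3, h4] at hglt
    exact lt_irrefl _ hglt
  · -- no short vectors: the lattices stabilize
    push Not at hsmall
    obtain ⟨η, hη, hηU⟩ := hsmall
    have hηU' : ∀ᶠ i in U, ∀ t : ι → ℝ, InDual (M i) t → (∀ j, |t j| < η) → Orth (M i) t := by
      filter_upwards [hηU] with i hi t ht ht'
      by_contra hno
      obtain ⟨j, hj⟩ := hi t ht hno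
      exact absurd (ht' j) (not_lt.2 hj)
    obtain ⟨K, hK⟩ := bounded_gen (ι := ι) hη
    have e2 := ultra_finite U (fun i (m : ι → ℤ) => m ∈ M i) _ (box_int (ι := ι) K)
    -- a common multiple
    set ks : ℕ := ∏ g ∈ Gen.filter (fun g => 0 < g none), g none with hks
    have hkspos : 0 < ks := Finset.prod_pos fun g hg => (Finset.mem_filter.1 hg).2
    have hdvd : ∀ g ∈ Gen, 0 < g none → g none ∣ ks := fun g hg h0 =>
      Finset.dvd_prod_of_mem (fun g : Option ι → ℕ => g none) (Finset.mem_filter.2 ⟨hg, h0⟩)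
    have ev1 : ∀ᶠ i in (U : Filter ℕ), ks ≤ i := hUtop (eventually_ge_atTop ks)
    obtain ⟨i, ⟨⟨⟨hi1, hi2⟩, hi3⟩, hi4⟩, hi5⟩ := ((((ev1.and e2).and ev3).and hα₀).and hηU').exists
    have hksk : ks ∣ k i := by
      refine dvd_trans ?_ (hk i)
      exact Nat.dvd_factorial hkspos (by omega)
    -- `M i` is contained in the limit
    have hMle : M i ≤ limLat U M := by
      refine (hK (M i) hi5).trans ?_
      rw [AddSubgroup.closure_le]
      rintro m ⟨hm, hmK⟩
      exact (hi2 m hmK).1 hm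
    obtain ⟨α, hα, hlt⟩ := hxα i
    obtain ⟨g, hg, hglt⟩ := hgen (a i) (val q κ α (a i))
      ⟨fun o => o.elim (rr i) (x i), hMle (hxM i α₀ hi4), hlt⟩
    have hgpos : 0 < g none := by
      rcases Nat.eq_zero_or_pos (g none) with h | h
      · exfalso
        rw [h] at hglt
        simp only [Nat.cast_zero, zero_mul] at hglt
        have : 0 ≤ ∑ j, (g (some j) : ℝ) * a i j :=
          Finset.sum_nonneg fun j _ => mul_nonneg (by positivity) (ha i j).le
        linarith
      · exact h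
    obtain ⟨c, hc⟩ := (hdvd g hg hgpos).trans hksk
    have hcpos : 0 < c := by
      rcases Nat.eq_zero_or_pos c with h | h
      · rw [h, mul_zero] at hc
        have := hkpos i
        omega
      · exact h
    have h5 := hE i (fun j => c * g (some j)) (by
      intro β hβ
      have h1 := (M i).zsmul_mem (hi3 g hg) (c : ℤ)
      have h2 := (M i).zsmul_mem (hSM i β hβ α₀ hi4) ((k i : ℤ) * q)
      have h3 := (M i).add_mem h1 h2
      have h4 : (fun j => ((c * g (some j) : ℕ) : ℤ) - k i * κ j +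
          k i * (q * β j)) =
          (c : ℤ) • (fun j => (g (some j) : ℤ) - g none * κ j + g none * (q * α₀ j)) +
          ((k i : ℤ) * q) • (fun j => (β j : ℤ) - α₀ j) := by
        ext j
        simp only [Pi.add_apply, Pi.smul_apply, smul_eq_mul]
        rw [hc]
        push_cast
        ring
      rw [h4]
      exact h3) α hα
    have h6 : ∑ j, ((c * g (some j) : ℕ) : ℝ) * a i j =
        c * ∑ j, (g (some j) : ℝ) * a i j := by
      rw [Finset.mul_sum]
      exact Finset.sum_congr rfl fun j _ => by push_cast; ring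
    rw [h6, hc] at h5
    push_cast at h5
    have h7 : (0 : ℝ) < c := by exact_mod_cast hcpos
    nlinarith

end Vale.Agent.P283.F647
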