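import Vale.Agent.P283.F647.Vec
import Vale.Agent.P283.Z647.Ext

/-!
Combinatorial data: lower bounds at lattice points.
-/

set_option linter.all false

namespace Vale.Agent.P283.F647

open Finset hiding val
open Vale.Agent.P283.Z647 (cone_dual)

variable {m N : ℕ}

/-- The least value on `P` is attained twice. -/
def Rel (P : Finset (Fin m → ℤ)) (a : Fin m → ℤ) : Prop :=
  ∃ α ∈ P, ∃ β ∈ P, α ≠ β ∧ pr α a = pr β a ∧ ∀ γ ∈ P, pr α a ≤ pr γ a

/-- The combinatorial data of a pair. -/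
structure IsData (q : ℕ) (δ : ℝ) (P Gs Es : Finset (Fin m → ℤ)) (r : ℕ) (v : Fin N → Fin m → ℤ)
    (T : Fin N → ℤ) (κ : Fin N → ℕ) : Prop where
  q0 : 0 < q
  δ0 : 0 < δ
  r0 : 0 < r
  ne : Es.Nonempty
  inj : ∀ i j, v i = v j → T i = T j
  top : ∀ j, ∀ α ∈ P, ∀ μ ∈ Gs, pr μ (v j) - q * pr α (v j) ≤ T j + κ j
  topE : ∀ j, ∃ α ∈ P, ∃ μ ∈ Gs, T j + κ j = pr μ (v j) - q * pr α (v j)
  κq : ∀ j, κ j ≤ q
  feas : ∀ j, ∀ x ∈ Es, r * T j ≤ q * pr x (v j)
  lc : ∀ A, Z647.InCone v A → A ≠ 0 → Rel P A → ∀ α ∈ P, (∀ β ∈ P, pr α A ≤ pr β A) →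
    ∃ μ ∈ Gs, ∃ x ∈ Es, δ * r ≤ r * ((pr μ A : ℝ) - q * pr α A) - q * pr x A

theorem cone_comb {v : Fin N → Fin m → ℤ} {ι : Type} [Fintype ι] {w : ι → Fin m → ℤ}
    (hw : ∀ i, Z647.InCone v (w i)) {c : ι → ℝ} (hc : ∀ i, 0 ≤ c i) {b : Fin m → ℤ}
    (hb : ∀ k, (b k : ℝ) = ∑ j, c j * w j k) : Z647.InCone v b := by
  apply cone_dual
  intro u hu
  have h1 : ∀ i, 0 ≤ pr u (w i) := by
    intro i
    have h2 := (hw i).pair hu
    unfold pr
    rw [Finset.sum_congr rfl fun k _ => mul_comm (u k) (w i k)]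
    exact h2
  have h2 : (0 : ℝ) ≤ (pr u b : ℝ) := by
    rw [pr_real hb]
    exact Finset.sum_nonneg fun j _ => mul_nonneg (hc j) (by exact_mod_cast h1 j)
  have h3 : 0 ≤ pr u b := by exact_mod_cast h2
  unfold pr at h3
  rw [Finset.sum_congr rfl fun k _ => mul_comm (u k) (b k)] at h3
  exact h3

theorem cone_ray (v : Fin N → Fin m → ℤ) (j : Fin N) : Z647.InCone v (v j) := by
  classical
  refine ⟨fun i => if i = j then 1 else 0, fun i => ?_, fun k => ?_⟩
  · show (0 : ℚ) ≤ if i = j then 1 else 0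
    split_ifs <;> norm_num
  · simp

/-- Somewhere the minimum drops. -/
theorem exists_drop {P : Finset (Fin m → ℤ)} {ι : Type} [Fintype ι] {w : ι → Fin m → ℤ}
    {a₀ : Fin m → ℤ} {c₀ : ι → ℝ} (hc₀ : ∀ j, 0 < c₀ j)
    (ha₀ : ∀ k, (a₀ k : ℝ) = ∑ j, c₀ j * w j k) (hrel : Rel P a₀)
    {b : Fin m → ℤ} {c : ι → ℝ} (hb : ∀ k, (b k : ℝ) = ∑ j, c j * w j k) {α : Fin m → ℤ}
    (hα : α ∈ P) (huniq : ∀ β ∈ P, β ≠ α → pr α b < pr β b) :
    ∃ j, ∃ β ∈ P, pr β (w j) < pr α (w j) := by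
  by_contra hno
  push Not at hno
  obtain ⟨α', hα', β', hβ', hne, heq, hmin⟩ := hrel
  have h1 : ∀ β ∈ P, pr α a₀ ≤ pr β a₀ := by
    intro β hβ
    have h2 : (pr α a₀ : ℝ) ≤ pr β a₀ := by
      rw [pr_real ha₀, pr_real ha₀]
      exact Finset.sum_le_sum fun j _ =>
        mul_le_mul_of_nonneg_left (by exact_mod_cast hno j β hβ) (hc₀ j).le
    exact_mod_cast h2
  obtain ⟨γ, hγ, hγα, hγm⟩ : ∃ γ ∈ P, γ ≠ α ∧ pr γ a₀ = pr α a₀ := by
    by_cases hcc : α' = α
    · exact ⟨β', hβ', fun h => hne (hcc.trans h.symm), by rw [← heq, hcc]⟩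
    · exact ⟨α', hα', hcc, le_antisymm (hmin α hα) (h1 α' hα')⟩
  have h2 : ∀ j, pr γ (w j) = pr α (w j) := by
    intro j
    by_contra hne2
    have hlt : pr α (w j) < pr γ (w j) := lt_of_le_of_ne (hno j γ hγ) (Ne.symm hne2)
    have h3 : (pr α a₀ : ℝ) < pr γ a₀ := by
      rw [pr_real ha₀, pr_real ha₀]
      exact Finset.sum_lt_sum (fun j' _ =>
        mul_le_mul_of_nonneg_left (by exact_mod_cast hno j' γ hγ) (hc₀ j').le)
        ⟨j, Finset.mem_univ _, mul_lt_mul_of_pos_left (by exact_mod_cast hlt) (hc₀ j)⟩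
    have h4 : pr α a₀ < pr γ a₀ := by exact_mod_cast h3
    omega
  have h3 : (pr γ b : ℝ) = pr α b := by
    rw [pr_real hb, pr_real hb]
    exact Finset.sum_congr rfl fun j _ => by rw [h2 j]
  have h4 : pr γ b = pr α b := by exact_mod_cast h3
  have h5 := huniq γ hγ hγα
  omega

variable {q : ℕ} {δ : ℝ} {P Gs Es : Finset (Fin m → ℤ)} {r : ℕ} {v : Fin N → Fin m → ℤ}
  {T : Fin N → ℤ} {κ : Fin N → ℕ}

/-- From a weight with unique minimum to a weight where the minimum is attained twice. -/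
theorem IsData.walk (D : IsData q δ P Gs Es r v T κ) {b : Fin m → ℤ} (hb : Z647.InCone v b)
    {α : Fin m → ℤ} (hα : α ∈ P) (huniq : ∀ β ∈ P, β ≠ α → pr α b < pr β b) {j : Fin N}
    {β₀ : Fin m → ℤ} (hβ₀ : β₀ ∈ P) (hlt : pr β₀ (v j) < pr α (v j)) :
    (∃ μ ∈ Gs, ∃ x ∈ Es, min δ q * r ≤ r * ((pr μ b : ℝ) - q * pr α b) - q * pr x b) ∨
      ∃ n p : ℕ, 0 < n ∧ 0 < p ∧ ∀ i, (n : ℤ) * b i + p * v j i = 0 := by
  classical
  have hmin : ∀ β ∈ P, pr α b ≤ pr β b := by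
    intro β hβ
    by_cases h : β = α
    · rw [h]
    · exact (huniq β hβ h).le
  let T' := P.filter fun β => pr β (v j) < pr α (v j)
  have hT : T'.Nonempty := ⟨β₀, Finset.mem_filter.2 ⟨hβ₀, hlt⟩⟩
  obtain ⟨β, hβT, hβmin⟩ := T'.exists_min_image
    (fun β => ((pr β b : ℝ) - pr α b) / ((pr α (v j) : ℝ) - pr β (v j))) hT
  obtain ⟨hβ, hβj⟩ := Finset.mem_filter.1 hβT
  obtain ⟨k, hk⟩ : ∃ k : ℕ, pr α (v j) = pr β (v j) + k + 1 :=
    ⟨(pr α (v j) - pr β (v j) - 1).toNat, by rw [Int.toNat_of_nonneg (by omega)]; ring⟩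
  obtain ⟨p, hp⟩ : ∃ p : ℕ, pr β b = pr α b + p :=
    ⟨(pr β b - pr α b).toNat, by rw [Int.toNat_of_nonneg (by have := hmin β hβ; omega)]; ring⟩
  have hβα : β ≠ α := by
    rintro rfl
    exact lt_irrefl _ hβj
  have hp0 : 0 < p := by
    have := huniq β hβ hβα
    omega
  let A' : Fin m → ℤ := fun i => ((k + 1 : ℕ) : ℤ) * b i + (p : ℤ) * v j i
  have hwt : ∀ γ, pr γ A' = ((k + 1 : ℕ) : ℤ) * pr γ b + p * pr γ (v j) := fun γ =>
    pr_comb _ _ _ _ _
  by_cases hA0 : A' = 0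
  · right
    exact ⟨k + 1, p, Nat.succ_pos k, hp0, fun i => congrFun hA0 i⟩
  left
  have hmin' : ∀ γ ∈ P, pr α A' ≤ pr γ A' := by
    intro γ hγ
    rw [hwt, hwt]
    by_cases hγi : pr γ (v j) < pr α (v j)
    · have hγT : γ ∈ T' := Finset.mem_filter.2 ⟨hγ, hγi⟩
      have h3 := hβmin γ hγT
      have h4 : (0 : ℝ) < (pr α (v j) : ℝ) - pr β (v j) := by
        have : (pr β (v j) : ℝ) < pr α (v j) := by exact_mod_cast hβj
        linarith
      have h5 : (0 : ℝ) < (pr α (v j) : ℝ) - pr γ (v j) := by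
        have : (pr γ (v j) : ℝ) < pr α (v j) := by exact_mod_cast hγi
        linarith
      rw [div_le_div_iff₀ h4 h5] at h3
      have h6 : ((pr α (v j) : ℝ) - pr β (v j)) = k + 1 := by rw [hk]; push_cast; ring
      have h7 : ((pr β b : ℝ) - pr α b) = p := by rw [hp]; push_cast; ring
      rw [h6, h7] at h3
      have h8 : ((((k + 1 : ℕ) : ℤ) * pr α b + p * pr α (v j) : ℤ) : ℝ) ≤
          ((((k + 1 : ℕ) : ℤ) * pr γ b + p * pr γ (v j) : ℤ) : ℝ) := by
        push_cast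
        linarith
      exact_mod_cast h8
    · push Not at hγi
      exact add_le_add (mul_le_mul_of_nonneg_left (hmin γ hγ) (by positivity))
        (mul_le_mul_of_nonneg_left hγi (by positivity))
  have heq : pr α A' = pr β A' := by
    rw [hwt, hwt, hp, hk]; push_cast; ring
  have hrel : Rel P A' := ⟨α, hα, β, hβ, hβα.symm, heq, hmin'⟩
  have hA'c : Z647.InCone v A' := hb.comb (k + 1) p j
  obtain ⟨μ, hμ, x, hx, hle⟩ := D.lc A' hA'c hA0 hrel α hα hmin'
  refine ⟨μ, hμ, x, hx, ?_⟩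
  -- the value at the ray
  obtain ⟨α', hα', μ', hμ', hT1⟩ := D.topE j
  have h1 := D.top j β hβ μ hμ
  have h2 := D.feas j x hx
  have h3 := D.κq j
  have hr : (0 : ℝ) < r := by exact_mod_cast D.r0
  have hq : (0 : ℝ) < q := by exact_mod_cast D.q0
  have hray : (r : ℝ) * ((pr μ (v j) : ℝ) - q * pr α (v j)) - q * pr x (v j) ≤ -(r * q * k) := by
    have h4 : (pr μ (v j) : ℝ) - q * pr β (v j) ≤ T j + κ j := by exact_mod_cast h1
    have h5 : (r : ℝ) * T j ≤ q * pr x (v j) := by exact_mod_cast h2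
    have h6 : (κ j : ℝ) ≤ q := by exact_mod_cast h3
    have h7 : (pr α (v j) : ℝ) = pr β (v j) + k + 1 := by rw [hk]; push_cast; ring
    have h8 : (pr μ (v j) : ℝ) - q * pr α (v j) ≤ T j + q - q * (k + 1) := by
      rw [h7]; nlinarith
    have h9 : (r : ℝ) * ((pr μ (v j) : ℝ) - q * pr α (v j)) ≤ r * (T j + q - q * (k + 1)) :=
      mul_le_mul_of_nonneg_left h8 hr.le
    nlinarith
  have hexp : (r : ℝ) * ((pr μ A' : ℝ) - q * pr α A') - q * pr x A' =
      (k + 1) * (r * ((pr μ b : ℝ) - q * pr α b) - q * pr x b) +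
      p * (r * ((pr μ (v j) : ℝ) - q * pr α (v j)) - q * pr x (v j)) := by
    rw [hwt, hwt, hwt]; push_cast; ring
  rw [hexp] at hle
  have hpR : (1 : ℝ) ≤ p := by exact_mod_cast hp0
  have hkR : (0 : ℝ) ≤ k := Nat.cast_nonneg k
  set y : ℝ := r * ((pr μ b : ℝ) - q * pr α b) - q * pr x b with hy
  have h4 : (p : ℝ) * (r * ((pr μ (v j) : ℝ) - q * pr α (v j)) - q * pr x (v j)) ≤
      p * (-(r * q * k)) := mul_le_mul_of_nonneg_left hray (by linarith)
  have h5 : δ * r + p * (r * q * k) ≤ (k + 1) * y := by linarith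
  have h6 : r * q * k ≤ p * ((r : ℝ) * q * k) := by
    have : 0 ≤ (r : ℝ) * q * k := by positivity
    nlinarith
  have h7 : min δ q * r ≤ δ * r := mul_le_mul_of_nonneg_right (min_le_left _ _) hr.le
  have h8 : min δ q * r * k ≤ q * r * k :=
    mul_le_mul_of_nonneg_right (mul_le_mul_of_nonneg_right (min_le_right _ _) hr.le) hkR
  have h9 : (k + 1) * (min δ q * r) ≤ (k + 1) * y := by nlinarith
  exact le_of_mul_le_mul_left h9 (by linarith)

/-- From values at a lattice point to values at coefficients. -/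
theorem IsData.val_of (D : IsData q δ P Gs Es r v T κ) {ι : Type} [Fintype ι] (φ : ι → Fin N)
    {c : ι → ℝ} (hc : ∀ j, 0 ≤ c j) {b : Fin m → ℤ}
    (hb : ∀ k, (b k : ℝ) = ∑ j, c j * v (φ j) k) {μ x α : Fin m → ℤ} (hx : x ∈ Es) {y : ℝ}
    (h : y * r ≤ r * ((pr μ b : ℝ) - q * pr α b) - q * pr x b) :
    y ≤ ∑ j, c j * ((pr (μ - (q : ℤ) • α) (v (φ j)) : ℝ) - T (φ j)) := by
  have hr : (0 : ℝ) < r := by exact_mod_cast D.r0
  have h1 : r * ∑ j, c j * (T (φ j) : ℝ) ≤ q * pr x b := by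
    rw [pr_real hb, Finset.mul_sum, Finset.mul_sum]
    refine Finset.sum_le_sum fun j _ => ?_
    have h2 : (r : ℝ) * T (φ j) ≤ q * pr x (v (φ j)) := by exact_mod_cast D.feas (φ j) x hx
    have h3 := mul_le_mul_of_nonneg_left h2 (hc j)
    linarith
  have h2 : ∑ j, c j * ((pr (μ - (q : ℤ) • α) (v (φ j)) : ℝ) - T (φ j)) =
      ((pr μ b : ℝ) - q * pr α b) - ∑ j, c j * (T (φ j) : ℝ) := by
    rw [pr_real hb, pr_real hb, Finset.mul_sum, ← Finset.sum_sub_distrib, ← Finset.sum_sub_distrib]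
    refine Finset.sum_congr rfl fun j _ => ?_
    rw [pr_sub, pr_smul]; push_cast; ring
  rw [h2]
  have h3 : y * r ≤ ((pr μ b : ℝ) - q * pr α b - ∑ j, c j * (T (φ j) : ℝ)) * r := by linarith
  exact le_of_mul_le_mul_right h3 hr

/-- The bound at the opposite of a ray. -/
theorem IsData.opp (D : IsData q δ P Gs Es r v T κ) {ι : Type} [Fintype ι] (φ : ι → Fin N)
    {c : ι → ℝ} (hc : ∀ j, 0 ≤ c j) {b : Fin m → ℤ}
    (hb : ∀ k, (b k : ℝ) = ∑ j, c j * v (φ j) k) {α : Fin m → ℤ} (hα : α ∈ P)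
    (huniq : ∀ β ∈ P, β ≠ α → pr α b < pr β b) {j : Fin N} {n p : ℕ} (hn : 0 < n) (hp : 0 < p)
    (hnp : ∀ i, (n : ℤ) * b i + p * v j i = 0) {β₀ : Fin m → ℤ} (hβ₀ : β₀ ∈ P)
    (hlt : pr β₀ (v j) < pr α (v j)) :
    (∃ μ ∈ Gs, (1 : ℝ) / 2 ≤ ∑ i, c i * ((pr (μ - (q : ℤ) • α) (v (φ i)) : ℝ) - T (φ i))) ∨
    ((∀ γ ∈ P, γ ≠ α → pr γ (v j) = pr α (v j) - 1) ∧ κ j = q ∧
      ∀ μ ∈ Gs, ∀ μ' ∈ Gs, pr μ (v j) = pr μ' (v j)) := by
  classical
  have hr : (0 : ℝ) < r := by exact_mod_cast D.r0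
  have hq : (1 : ℝ) ≤ q := by exact_mod_cast D.q0
  have hnR : (0 : ℝ) < n := by exact_mod_cast hn
  have hpR : (0 : ℝ) < p := by exact_mod_cast hp
  -- pairings
  have hpair : ∀ x, (n : ℤ) * pr x b + p * pr x (v j) = 0 := by
    intro x
    rw [← pr_comb]
    have : (fun i => (n : ℤ) * b i + p * v j i) = 0 := funext hnp
    rw [this, pr_zero_right]
  obtain ⟨α', hα', μ', hμ', hT1⟩ := D.topE j
  have hμ'max : ∀ μ ∈ Gs, pr μ (v j) ≤ pr μ' (v j) := by
    intro μ hμ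
    have := D.top j α' hα' μ hμ
    omega
  have hα'min : ∀ β ∈ P, pr α' (v j) ≤ pr β (v j) := by
    intro β hβ
    have h1 := D.top j β hβ μ' hμ'
    have h2 : (q : ℤ) * pr α' (v j) ≤ q * pr β (v j) := by omega
    exact le_of_mul_le_mul_left h2 (by exact_mod_cast D.q0)
  -- the functional of `Gs` with the least value at the ray
  obtain ⟨μ, hμ, hμmin⟩ := Gs.exists_min_image (fun μ => pr μ (v j)) ⟨μ', hμ'⟩
  -- the value
  set lam : ℝ := (p : ℝ) / n with hlam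
  have hlam0 : 0 < lam := div_pos hpR hnR
  have hpairR : ∀ x, (pr x b : ℝ) = -lam * pr x (v j) := by
    intro x
    have h1 : (n : ℝ) * pr x b + p * pr x (v j) = 0 := by exact_mod_cast hpair x
    rw [hlam]
    field_simp
    linarith
  have hval : lam * ((T j : ℝ) - pr (μ - (q : ℤ) • α) (v j)) ≤
      ∑ i, c i * ((pr (μ - (q : ℤ) • α) (v (φ i)) : ℝ) - T (φ i)) := by
    obtain ⟨x, hx⟩ := D.ne
    have h1 : r * ∑ i, c i * (T (φ i) : ℝ) ≤ q * pr x b := by
      rw [pr_real hb, Finset.mul_sum, Finset.mul_sum]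
      refine Finset.sum_le_sum fun i _ => ?_
      have h2 : (r : ℝ) * T (φ i) ≤ q * pr x (v (φ i)) := by exact_mod_cast D.feas (φ i) x hx
      have h3 := mul_le_mul_of_nonneg_left h2 (hc i)
      linarith
    have h2 : (r : ℝ) * T j ≤ q * pr x (v j) := by exact_mod_cast D.feas j x hx
    have h3 : ∑ i, c i * ((pr (μ - (q : ℤ) • α) (v (φ i)) : ℝ) - T (φ i)) =
        (pr (μ - (q : ℤ) • α) b : ℝ) - ∑ i, c i * (T (φ i) : ℝ) := by
      rw [pr_real hb, ← Finset.sum_sub_distrib]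
      exact Finset.sum_congr rfl fun i _ => by ring
    rw [h3, hpairR (μ - (q : ℤ) • α)]
    have h4 : r * (∑ i, c i * (T (φ i) : ℝ)) ≤ r * (-(lam * T j)) := by
      rw [hpairR x] at h1
      have h5 := mul_le_mul_of_nonneg_left h2 hlam0.le
      linarith
    have h5 := le_of_mul_le_mul_left h4 hr
    linarith
  -- integers
  set K : ℤ := pr α (v j) - pr α' (v j) with hK
  set gw : ℤ := pr μ' (v j) - pr μ (v j) with hgw
  have hgw0 : 0 ≤ gw := by have := hμ'max μ hμ; omega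
  have hK1 : 1 ≤ K := by have := hα'min β₀ hβ₀; omega
  have hint : (T j : ℝ) - pr (μ - (q : ℤ) • α) (v j) = gw + q * K - κ j := by
    have h1 : T j - pr (μ - (q : ℤ) • α) (v j) = gw + q * K - κ j := by
      rw [pr_sub, pr_smul, hgw, hK]
      linear_combination hT1
    exact_mod_cast h1
  rw [hint] at hval
  have hκq : (κ j : ℝ) ≤ q := by exact_mod_cast D.κq j
  have hlamK : 1 ≤ lam * K := by
    have h1 := hpair α
    have h2 := hpair α'
    have h3 : (n : ℤ) * (pr α' b - pr α b) = p * K := by rw [hK]; linear_combination h2 - h1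
    have h4 : 0 < pr α' b - pr α b := by
      have h5 : 0 < (n : ℤ) * (pr α' b - pr α b) := by
        rw [h3]
        have : (0 : ℤ) < p := by exact_mod_cast hp
        positivity
      exact pos_of_mul_pos_right h5 (by positivity)
    have h5 : (n : ℝ) ≤ p * K := by
      have h6 : (n : ℤ) ≤ p * K := by
        rw [← h3]
        have : (0 : ℤ) < n := by exact_mod_cast hn
        nlinarith
      exact_mod_cast h6
    rw [hlam, div_mul_eq_mul_div, le_div_iff₀ hnR, one_mul]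
    exact h5
  have hgwR : (0 : ℝ) ≤ gw := by exact_mod_cast hgw0
  rcases lt_or_ge 1 K with hK2 | hK2
  · left
    refine ⟨μ, hμ, le_trans ?_ hval⟩
    have h1 : (2 : ℝ) ≤ K := by exact_mod_cast hK2
    have h2 : (q : ℝ) * (K / 2) ≤ gw + q * K - κ j := by nlinarith
    have h3 := mul_le_mul_of_nonneg_left h2 hlam0.le
    have h4 : (1 : ℝ) / 2 ≤ lam * (q * (K / 2)) := by nlinarith
    linarith
  · have hK' : K = 1 := le_antisymm hK2 hK1
    rw [hK'] at hlamK hval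
    push_cast at hlamK hval
    simp only [mul_one] at hlamK hval
    by_cases hex : κ j = q ∧ gw = 0
    · right
      obtain ⟨h1, h2⟩ := hex
      refine ⟨fun γ hγ hne => ?_, h1, fun μ₁ hμ₁ μ₂ hμ₂ => ?_⟩
      · have h3 := huniq γ hγ hne
        have h4 := hpair γ
        have h5 := hpair α
        have h6 := hα'min γ hγ
        have h7 : (n : ℤ) * (pr γ b - pr α b) = p * (pr α (v j) - pr γ (v j)) := by
          linear_combination h4 - h5
        have h8 : 0 < (p : ℤ) * (pr α (v j) - pr γ (v j)) := by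
          rw [← h7]
          have : (0 : ℤ) < n := by exact_mod_cast hn
          have h9 : 0 < pr γ b - pr α b := by omega
          positivity
        have h9 : 0 < pr α (v j) - pr γ (v j) := pos_of_mul_pos_right h8 (by positivity)
        omega
      · have h3 := hμ'max μ₁ hμ₁
        have h4 := hμ'max μ₂ hμ₂
        have h5 := hμmin μ₁ hμ₁
        have h6 := hμmin μ₂ hμ₂
        omega
    · left
      refine ⟨μ, hμ, le_trans ?_ hval⟩
      have h1 : (1 : ℤ) ≤ gw + q - κ j := by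
        have h2 := D.κq j
        by_contra hlt'
        push Not at hlt'
        apply hex
        constructor <;> omega
      have h2 : (1 : ℝ) ≤ gw + q - κ j := by exact_mod_cast h1
      nlinarith

end Vale.Agent.P283.F647
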