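import Vale.Agent.P283.F647.Low

/-!
The exceptional configuration.
-/

set_option linter.all false

namespace Vale.Agent.P283.F647

open Finset hiding val
open Vale.Agent.P283.Z647 (cone_dual)

/-- The conclusion of the theorem on families with a positive relation. -/
def CplAt {ι : Type} [Fintype ι] (κ : ι → ℕ) (ε : ℝ) (k : ℕ) : Prop :=
  ∀ (m : ℕ) (w : ι → Fin m → ℤ) (V : AddSubgroup (Fin m → ℤ)) (Ls : Finset (Fin m → ℤ))
      (T : ι → ℤ), (∀ ℓ ∈ Ls, ∀ ℓ' ∈ Ls, ℓ - ℓ' ∈ V) →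
      (∀ ℓ ∈ Ls, ∀ j, pr ℓ (w j) ≤ T j + κ j) →
      (∃ ρ : ι → ℝ, (∀ j, 0 < ρ j) ∧ ∀ u ∈ V, ∑ j, ρ j * (pr u (w j) : ℝ) = 0) →
      (∀ c : ι → ℝ, (∀ j, 0 < c j) → (∀ u ∈ V, ∃ z : ℤ, ∑ j, c j * (pr u (w j) : ℝ) = z) →
        ¬ (∀ u ∈ V, ∑ j, c j * (pr u (w j) : ℝ) = 0) →
        ∃ ℓ ∈ Ls, ε ≤ ∑ j, c j * ((pr ℓ (w j) : ℝ) - T j)) →
      ∀ c : ι → ℝ, (∀ j, 0 < c j) →
        (∃ (R : ℕ) (X : Fin m → ℤ), (∀ ℓ ∈ Ls, X - (R : ℤ) • ℓ ∈ V) ∧
          (∀ j, R * T j ≤ pr X (w j)) ∧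
          ∃ ℓ ∈ Ls, ∑ j, c j * (pr X (w j) : ℝ) < R * ∑ j, c j * (pr ℓ (w j) : ℝ)) →
        ∃ X : Fin m → ℤ, (∀ ℓ ∈ Ls, X - (k : ℤ) • ℓ ∈ V) ∧ (∀ j, k * T j ≤ pr X (w j)) ∧
          ∃ ℓ ∈ Ls, ∑ j, c j * (pr X (w j) : ℝ) < k * ∑ j, c j * (pr ℓ (w j) : ℝ)

/-- The conclusion of the theorem on families without a positive relation. -/
def CvxAt {ι : Type} [Fintype ι] (κ : ι → ℕ) (ε : ℝ) (k : ℕ) : Prop :=
    ∀ (m : ℕ) (w : ι → Fin m → ℤ) (Ls : Finset (Fin m → ℤ)) (T : ι → ℤ),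
      (∀ ℓ ∈ Ls, ∀ j, pr ℓ (w j) ≤ T j + κ j) →
      (∀ c : ι → ℝ, (∀ j, 0 < c j) → ∀ b : Fin m → ℤ, (∀ k, (b k : ℝ) = ∑ j, c j * w j k) →
        ∃ ℓ ∈ Ls, ε ≤ ∑ j, c j * ((pr ℓ (w j) : ℝ) - T j)) →
      ∀ c : ι → ℝ, (∀ j, 0 < c j) →
        ∃ X : Fin m → ℤ, (∀ j, k * T j ≤ pr X (w j)) ∧
          ∃ ℓ ∈ Ls, ∑ j, c j * (pr X (w j) : ℝ) < k * ∑ j, c j * (pr ℓ (w j) : ℝ)

theorem exists_cplAt {ι : Type} [Fintype ι] (κ : ι → ℕ) {ε : ℝ} (hε : 0 < ε) :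
    ∃ k₀ : ℕ, 0 < k₀ ∧ ∀ k : ℕ, k₀ ∣ k → 0 < k → CplAt κ ε k := by
  obtain ⟨k₀, hk₀, h⟩ := cpl_vec κ hε
  exact ⟨k₀, hk₀, fun k hk hk0 m w V Ls T h1 h2 h3 h4 c hc h5 =>
    h m w V Ls T h1 h2 h3 h4 k hk hk0 c hc h5⟩

theorem exists_cvxAt {ι : Type} [Fintype ι] (κ : ι → ℕ) {ε : ℝ} (hε : 0 < ε) :
    ∃ k₀ : ℕ, 0 < k₀ ∧ ∀ k : ℕ, k₀ ∣ k → 0 < k → CvxAt κ ε k := by
  obtain ⟨k₀, hk₀, h⟩ := cvx_vec κ hε
  exact ⟨k₀, hk₀, fun k hk hk0 m w Ls T h1 h2 c hc => h m w Ls T h1 h2 k hk hk0 c hc⟩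

variable {m N : ℕ} {q : ℕ} {δ : ℝ} {P Gs Es : Finset (Fin m → ℤ)} {r : ℕ}
  {v : Fin N → Fin m → ℤ} {T : Fin N → ℤ} {κ : Fin N → ℕ}

theorem IsData.etype_T (D : IsData q δ P Gs Es r v T κ) {j : Fin N} {α : Fin m → ℤ}
    (hα : α ∈ P) (hK : ∀ γ ∈ P, γ ≠ α → pr γ (v j) = pr α (v j) - 1) (hκ : κ j = q)
    (hG : ∀ μ ∈ Gs, ∀ μ' ∈ Gs, pr μ (v j) = pr μ' (v j)) (hP2 : ∃ γ ∈ P, γ ≠ α) :
    ∀ μ ∈ Gs, pr μ (v j) - q * pr α (v j) = T j := by
  intro μ hμ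
  obtain ⟨α', hα', μ', hμ', hT⟩ := D.topE j
  obtain ⟨γ, hγ, hγα⟩ := hP2
  have h1 := D.top j γ hγ μ' hμ'
  rw [hK γ hγ hγα] at h1
  have hq : (0 : ℤ) < q := by exact_mod_cast D.q0
  have h2 : α' ≠ α := by
    rintro rfl
    have h3 : (q : ℤ) * (pr α' (v j) - 1) = q * pr α' (v j) - q := by ring
    omega
  rw [hK α' hα' h2, hκ] at hT
  rw [hG μ hμ μ' hμ']
  linear_combination -hT

theorem IsData.lift_E (D : IsData q δ P Gs Es r v T κ) {j : Fin N} {α : Fin m → ℤ}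
    (hα : α ∈ P) (hK : ∀ γ ∈ P, γ ≠ α → pr γ (v j) = pr α (v j) - 1) (hκ : κ j = q)
    (hG : ∀ μ ∈ Gs, ∀ μ' ∈ Gs, pr μ (v j) = pr μ' (v j)) (hP2 : ∃ γ ∈ P, γ ≠ α)
    {ι : Type} [Fintype ι] (φ : ι → Fin N)
    (hE4 : ∀ i, ∀ γ ∈ P, pr α (v (φ i)) ≤ pr γ (v (φ i))) (a' : Fin m → ℤ) (c : ι → ℝ)
    (hc : ∀ i, 0 ≤ c i) (σ : ℝ)
    (ha' : ∀ k, (a' k : ℝ) = ∑ i, c i * v (φ i) k + σ * v j k) :
    (∃ s : ℤ, ∀ k, a' k = s * v j k) ∨
    ((∃ μ ∈ Gs, δ ≤ ∑ i, c i * ((pr (μ - (q : ℤ) • α) (v (φ i)) : ℝ) - T (φ i))) ∧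
      ∃ X : Fin m → ℤ, pr X (v j) = r * T j ∧ (∀ i, r * T (φ i) ≤ pr X (v (φ i))) ∧
        ∃ μ ∈ Gs, ∑ i, c i * (pr X (v (φ i)) : ℝ) <
          r * ∑ i, c i * (pr (μ - (q : ℤ) • α) (v (φ i)) : ℝ)) := by
  classical
  have hT := D.etype_T hα hK hκ hG hP2
  obtain ⟨γ₁, hγ₁, hγ₁α⟩ := hP2
  obtain ⟨γ₀, hγ₀, hγ₀min⟩ := (P.erase α).exists_min_image (fun γ => pr γ a' - pr α a')
    ⟨γ₁, Finset.mem_erase.2 ⟨hγ₁α, hγ₁⟩⟩
  obtain ⟨hγ₀α, hγ₀P⟩ := Finset.mem_erase.1 hγ₀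
  set s : ℤ := pr γ₀ a' - pr α a' with hs
  let b₀ : Fin m → ℤ := fun k => 1 * a' k + s * v j k
  have hb₀ : ∀ x, pr x b₀ = pr x a' + s * pr x (v j) := by
    intro x
    have := pr_comb x a' (v j) 1 s
    rw [one_mul] at this
    exact this
  have hmin : ∀ β ∈ P, pr α b₀ ≤ pr β b₀ := by
    intro β hβ
    by_cases h : β = α
    · rw [h]
    · rw [hb₀, hb₀, hK β hβ h]
      have h1 := hγ₀min β (Finset.mem_erase.2 ⟨h, hβ⟩)
      linarith
  have heq : pr α b₀ = pr γ₀ b₀ := by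
    rw [hb₀, hb₀, hK γ₀ hγ₀P hγ₀α, hs]; ring
  have hrel : Rel P b₀ := ⟨α, hα, γ₀, hγ₀P, hγ₀α.symm, heq, hmin⟩
  by_cases hb0 : b₀ = 0
  · left
    refine ⟨-s, fun k => ?_⟩
    have h1 : 1 * a' k + s * v j k = 0 := congrFun hb0 k
    linarith
  right
  set s' : ℝ := σ + s with hs'
  let w : Option ι → Fin N := fun o => o.elim j φ
  let c' : Option ι → ℝ := fun o => o.elim s' c
  have hrep : ∀ k, (b₀ k : ℝ) = ∑ o, c' o * v (w o) k := by
    intro k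
    rw [Fintype.sum_option]
    simp only [c', w, Option.elim, b₀]
    push_cast
    rw [ha' k, hs']
    ring
  have hpr : ∀ x, (pr x b₀ : ℝ) = s' * pr x (v j) + ∑ i, c i * (pr x (v (φ i)) : ℝ) := by
    intro x
    have h1 := pr_real (w := fun o => v (w o)) hrep x
    rw [Fintype.sum_option] at h1
    exact h1
  have hs'0 : 0 ≤ s' := by
    have h1 := hpr α
    have h2 := hpr γ₀
    have h3 : (pr α b₀ : ℝ) = pr γ₀ b₀ := by exact_mod_cast heq
    have h4 : (pr γ₀ (v j) : ℝ) = pr α (v j) - 1 := by exact_mod_cast hK γ₀ hγ₀P hγ₀α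
    have h5 : ∑ i, c i * (pr α (v (φ i)) : ℝ) ≤ ∑ i, c i * (pr γ₀ (v (φ i)) : ℝ) :=
      Finset.sum_le_sum fun i _ => mul_le_mul_of_nonneg_left
        (by exact_mod_cast hE4 i γ₀ hγ₀P) (hc i)
    rw [h4] at h2
    linarith
  have hc'0 : ∀ o, 0 ≤ c' o := by
    rintro (_ | i)
    · exact hs'0
    · exact hc i
  have hcone : Z647.InCone v b₀ := cone_comb (fun o => cone_ray v (w o)) hc'0 hrep
  obtain ⟨μ, hμ, x, hx, hle⟩ := D.lc b₀ hcone hb0 hrel α hα hmin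
  have hr : (0 : ℝ) < r := by exact_mod_cast D.r0
  have hℓ : (pr (μ - (q : ℤ) • α) (v j) : ℝ) = T j := by
    rw [pr_sub, pr_smul]
    exact_mod_cast hT μ hμ
  constructor
  · refine ⟨μ, hμ, ?_⟩
    have h1 := D.val_of w hc'0 hrep hx hle
    rw [Fintype.sum_option] at h1
    simp only [c', w, Option.elim] at h1
    rw [hℓ, sub_self, mul_zero, zero_add] at h1
    exact h1
  · set Mj : ℤ := q * pr x (v j) - r * T j with hMj
    have hMj0 : 0 ≤ Mj := by have := D.feas j x hx; omega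
    have hXp : ∀ y, pr ((q : ℤ) • x + Mj • (γ₀ - α)) y =
        q * pr x y + Mj * (pr γ₀ y - pr α y) := by
      intro y
      rw [pr_add, pr_smul, pr_smul, pr_sub]
    refine ⟨(q : ℤ) • x + Mj • (γ₀ - α), ?_, fun i => ?_, μ, hμ, ?_⟩
    · rw [hXp, hK γ₀ hγ₀P hγ₀α, hMj]; ring
    · rw [hXp]
      have h1 := D.feas (φ i) x hx
      have h2 : 0 ≤ pr γ₀ (v (φ i)) - pr α (v (φ i)) := by
        have := hE4 i γ₀ hγ₀P
        omega
      have h3 := mul_nonneg hMj0 h2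
      omega
    · have h1 := hpr ((q : ℤ) • x + Mj • (γ₀ - α))
      have h2 := hpr (μ - (q : ℤ) • α)
      have h3 : (pr ((q : ℤ) • x + Mj • (γ₀ - α)) (v j) : ℝ) = r * T j := by
        have : pr ((q : ℤ) • x + Mj • (γ₀ - α)) (v j) = r * T j := by
          rw [hXp, hK γ₀ hγ₀P hγ₀α, hMj]; ring
        exact_mod_cast this
      have h4 : (pr ((q : ℤ) • x + Mj • (γ₀ - α)) b₀ : ℝ) = q * pr x b₀ := by
        have : pr ((q : ℤ) • x + Mj • (γ₀ - α)) b₀ = q * pr x b₀ := by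
          rw [hXp, ← heq]; ring
        exact_mod_cast this
      have h5 : (pr (μ - (q : ℤ) • α) b₀ : ℝ) = pr μ b₀ - q * pr α b₀ := by
        rw [pr_sub, pr_smul]; push_cast; ring
      rw [h3, h4] at h1
      rw [hℓ, h5] at h2
      have h6 : 0 < δ * r := mul_pos D.δ0 hr
      have h7 : (r : ℝ) * ((pr μ b₀ : ℝ) - q * pr α b₀) = r * (s' * T j) +
          r * ∑ i, c i * (pr (μ - (q : ℤ) • α) (v (φ i)) : ℝ) := by
        rw [h2]; ring
      linarith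

theorem IsData.etype_point (D : IsData q δ P Gs Es r v T κ) (J : Finset (Fin N)) {j : Fin N}
    (hj : j ∈ J) {α : Fin m → ℤ} (hα : α ∈ P)
    (hK : ∀ γ ∈ P, γ ≠ α → pr γ (v j) = pr α (v j) - 1) (hκ : κ j = q)
    (hG : ∀ μ ∈ Gs, ∀ μ' ∈ Gs, pr μ (v j) = pr μ' (v j))
    (hE4 : ∀ i ∈ J, v i ≠ v j → ∀ γ ∈ P, pr α (v i) ≤ pr γ (v i))
    (ρ : Fin N → ℝ) (hρ : ∀ i ∈ J, 0 < ρ i) (hρ0 : ∀ k, ∑ i ∈ J, ρ i * (v i k : ℝ) = 0)
    {k : ℕ} (hk : 0 < k)
    (hcpl : CplAt (fun i : ↥(J.filter fun i => v i ≠ v j) => κ i) δ k)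
    (a : Fin m → ℤ) (ha0 : a ≠ 0) (hrel : Rel P a) (c : Fin N → ℝ) (hc : ∀ i ∈ J, 0 < c i)
    (hca : ∀ k, (a k : ℝ) = ∑ i ∈ J, c i * v i k) :
    ∃ X : Fin m → ℤ, (∀ i ∈ J, k * T i ≤ pr X (v i)) ∧
      ∃ α' ∈ P, ∃ μ ∈ Gs, pr X a < k * (pr μ a - q * pr α' a) := by
  classical
  have hP2 : ∃ γ ∈ P, γ ≠ α := by
    obtain ⟨α', hα', β', hβ', hne, -, -⟩ := hrel
    by_cases h : α' = α
    · exact ⟨β', hβ', fun h' => hne (h.trans h'.symm)⟩
    · exact ⟨α', hα', h⟩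
  have hT := D.etype_T hα hK hκ hG hP2
  have hr : (0 : ℝ) < r := by exact_mod_cast D.r0
  have hkR : (0 : ℝ) < k := by exact_mod_cast hk
  set J' := J.filter fun i => v i ≠ v j with hJ'
  let φ : ↥J' → Fin N := fun i => i
  have hmemJ : ∀ i : ↥J', (i : Fin N) ∈ J := fun i => (Finset.mem_filter.1 i.2).1
  have hmemv : ∀ i : ↥J', v (i : Fin N) ≠ v j := fun i => (Finset.mem_filter.1 i.2).2
  -- splitting of sums
  have hsplit : ∀ (F : Fin N → ℝ) (G : (Fin m → ℤ) → ℝ),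
      ∑ i ∈ J, F i * G (v i) = ∑ i : ↥J', F i * G (v i) +
        (∑ i ∈ J.filter (fun i => ¬ v i ≠ v j), F i) * G (v j) := by
    intro F G
    rw [← Finset.sum_filter_add_sum_filter_not J (fun i => v i ≠ v j)]
    congr 1
    · rw [hJ', ← Finset.sum_coe_sort]
    · rw [Finset.sum_mul]
      refine Finset.sum_congr rfl fun i hi => ?_
      have h1 := (Finset.mem_filter.1 hi).2
      push Not at h1
      rw [h1]
  have hE4' : ∀ i : ↥J', ∀ γ ∈ P, pr α (v (φ i)) ≤ pr γ (v (φ i)) := fun i =>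
    hE4 i (hmemJ i) (hmemv i)
  let V : AddSubgroup (Fin m → ℤ) :=
    { carrier := {u | pr u (v j) = 0}
      zero_mem' := pr_zero_left _
      add_mem' := by
        intro x y hx hy
        show pr (x + y) (v j) = 0
        rw [pr_add, show pr x (v j) = 0 from hx, show pr y (v j) = 0 from hy, add_zero]
      neg_mem' := by
        intro x hx
        show pr (-x) (v j) = 0
        have h1 : -x = (-1 : ℤ) • x := by simp
        rw [h1, pr_smul, show pr x (v j) = 0 from hx, mul_zero] }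
  have hV : ∀ u, u ∈ V ↔ pr u (v j) = 0 := fun u => Iff.rfl
  let Ls : Finset (Fin m → ℤ) := Gs.image fun μ => μ - (q : ℤ) • α
  have hLs : ∀ ℓ ∈ Ls, pr ℓ (v j) = T j := by
    intro ℓ hℓ
    obtain ⟨μ, hμ, rfl⟩ := Finset.mem_image.1 hℓ
    rw [pr_sub, pr_smul]
    exact hT μ hμ
  -- the key consequence
  have key : ∀ c' : ↥J' → ℝ, (∀ i, 0 < c' i) →
      (∃ X : Fin m → ℤ, pr X (v j) = r * T j ∧ (∀ i : ↥J', r * T i ≤ pr X (v i)) ∧
        ∃ μ ∈ Gs, ∑ i : ↥J', c' i * (pr X (v i) : ℝ) <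
          r * ∑ i : ↥J', c' i * (pr (μ - (q : ℤ) • α) (v i) : ℝ)) →
      ∃ X : Fin m → ℤ, pr X (v j) = k * T j ∧ (∀ i ∈ J, k * T i ≤ pr X (v i)) ∧
        ∃ μ ∈ Gs, ∑ i : ↥J', c' i * (pr X (v i) : ℝ) <
          k * ∑ i : ↥J', c' i * (pr (μ - (q : ℤ) • α) (v i) : ℝ) := by
    intro c' hc' hX
    obtain ⟨X, hX1, hX2, μ, hμ, hX3⟩ := hX
    obtain ⟨X', hX'1, hX'2, ℓ, hℓ, hX'3⟩ := hcpl m (fun i => v i) V Ls (fun i => T i)
      (by
        intro ℓ hℓ ℓ' hℓ'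
        rw [hV, pr_sub, hLs ℓ hℓ, hLs ℓ' hℓ', sub_self])
      (by
        intro ℓ hℓ i
        obtain ⟨μ, hμ, rfl⟩ := Finset.mem_image.1 hℓ
        rw [pr_sub, pr_smul]
        exact D.top i α hα μ hμ)
      (by
        refine ⟨fun i => ρ i, fun i => hρ i (hmemJ i), fun u hu => ?_⟩
        have h1 := hsplit ρ (fun y => (pr u y : ℝ))
        rw [show pr u (v j) = 0 from hu] at h1
        simp only [Int.cast_zero, mul_zero, add_zero] at h1
        rw [← h1]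
        have h2 : ∑ i ∈ J, ρ i * (pr u (v i) : ℝ) = ∑ k, (u k : ℝ) * ∑ i ∈ J, ρ i * (v i k : ℝ) := by
          unfold pr
          push_cast
          simp only [Finset.mul_sum]
          rw [Finset.sum_comm]
          exact Finset.sum_congr rfl fun _ _ => Finset.sum_congr rfl fun _ _ => by ring
        rw [h2]
        exact Finset.sum_eq_zero fun k _ => by rw [hρ0 k, mul_zero])
      (by
        intro c'' hc'' hint hne
        -- an integral lift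
        obtain ⟨γ₁, hγ₁, hγ₁α⟩ := hP2
        let u₁ : Fin m → ℤ := α - γ₁
        have hu₁ : pr u₁ (v j) = 1 := by
          rw [pr_sub, hK γ₁ hγ₁ hγ₁α]; ring
        have hz : ∀ k, ∃ z : ℤ, ∑ i : ↥J', c'' i *
            (pr (Pi.single k 1 - (v j k) • u₁) (v i) : ℝ) = z := by
          intro k
          apply hint
          rw [hV, pr_sub, pr_smul, hu₁, pr_single, mul_one, sub_self]
        choose z hz using hz
        have hzrep : ∀ k, (z k : ℝ) = ∑ i : ↥J', c'' i * (v (φ i) k : ℝ) +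
            (-∑ i : ↥J', c'' i * (pr u₁ (v i) : ℝ)) * v j k := by
          intro k
          rw [← hz k, neg_mul, Finset.sum_mul, ← sub_eq_add_neg, ← Finset.sum_sub_distrib]
          refine Finset.sum_congr rfl fun i _ => ?_
          rw [pr_sub, pr_smul, pr_single]
          push_cast
          ring
        rcases D.lift_E hα hK hκ hG ⟨γ₁, hγ₁, hγ₁α⟩ φ hE4' z c'' (fun i => (hc'' i).le) _ hzrep with
          ⟨s, hs⟩ | ⟨⟨μ', hμ', hle⟩, -⟩
        · exfalso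
          apply hne
          intro u hu
          have h1 : (pr u z : ℝ) = ∑ i : ↥J', c'' i * (pr u (v i) : ℝ) := by
            let w : Option ↥J' → Fin m → ℤ := fun o => o.elim (v j) (fun i => v i)
            let c3 : Option ↥J' → ℝ := fun o =>
              o.elim (-∑ i : ↥J', c'' i * (pr u₁ (v i) : ℝ)) c''
            have hrep : ∀ k, (z k : ℝ) = ∑ o, c3 o * w o k := by
              intro k
              rw [Fintype.sum_option, hzrep k]
              simp only [c3, w, Option.elim]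
              rw [add_comm]
            have h2 := pr_real hrep u
            rw [Fintype.sum_option] at h2
            simp only [c3, w, Option.elim] at h2
            rw [show pr u (v j) = 0 from hu] at h2
            rw [h2]
            simp
          rw [← h1]
          have h2 : pr u z = s * pr u (v j) := by
            unfold pr
            rw [Finset.mul_sum]
            exact Finset.sum_congr rfl fun k _ => by rw [hs k]; ring
          rw [h2, show pr u (v j) = 0 from hu]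
          simp
        · exact ⟨_, Finset.mem_image_of_mem _ hμ', hle⟩)
      c' hc' ⟨r, X, fun ℓ hℓ => by
        rw [hV, pr_sub, pr_smul, hLs ℓ hℓ, hX1, sub_self], hX2, _,
        Finset.mem_image_of_mem _ hμ, hX3⟩
    obtain ⟨μ', hμ', rfl⟩ := Finset.mem_image.1 hℓ
    have hX'j : pr X' (v j) = k * T j := by
      have h1 := hX'1 _ hℓ
      rw [hV, pr_sub, pr_smul, hLs _ hℓ] at h1
      linarith
    refine ⟨X', hX'j, fun i hi => ?_, μ', hμ', hX'3⟩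
    by_cases h : v i ≠ v j
    · exact hX'2 ⟨i, Finset.mem_filter.2 ⟨hi, h⟩⟩
    · push Not at h
      rw [D.inj i j h, h, hX'j]
  -- the weight `a`
  set σ : ℝ := ∑ i ∈ J.filter (fun i => ¬ v i ≠ v j), c i with hσ
  have harep : ∀ k, (a k : ℝ) = ∑ i : ↥J', c i * (v (φ i) k : ℝ) + σ * v j k := by
    intro k
    rw [hca k, hsplit c (fun y => (y k : ℝ))]
  rcases D.lift_E hα hK hκ hG hP2 φ hE4' a (fun i => c i) (fun i => (hc i (hmemJ i)).le) σ
    harep with ⟨s, hs⟩ | ⟨-, hX⟩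
  swap
  · obtain ⟨X, hXj, hX1, μ, hμ, hX2⟩ := key (fun i => c i) (fun i => hc i (hmemJ i)) hX
    refine ⟨X, hX1, α, hα, μ, hμ, ?_⟩
    have hpr : ∀ x, (pr x a : ℝ) = ∑ i : ↥J', c i * (pr x (v i) : ℝ) + σ * pr x (v j) := by
      intro x
      have h1 := hsplit c (fun y => (pr x y : ℝ))
      rw [← h1]
      unfold pr
      push_cast
      simp only [hca, Finset.mul_sum]
      rw [Finset.sum_comm]
      exact Finset.sum_congr rfl fun _ _ => Finset.sum_congr rfl fun _ _ => by ring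
    have h1 := hpr X
    have h2 := hpr (μ - (q : ℤ) • α)
    have h3 : (pr (μ - (q : ℤ) • α) (v j) : ℝ) = T j := by
      rw [pr_sub, pr_smul]
      exact_mod_cast hT μ hμ
    rw [h3] at h2
    rw [hXj] at h1
    push_cast at h1
    have h4 : (pr X a : ℝ) < k * pr (μ - (q : ℤ) • α) a := by
      rw [h1, h2, mul_add]
      linarith
    have h5 : pr X a < k * pr (μ - (q : ℤ) • α) a := by exact_mod_cast h4
    rw [pr_sub, pr_smul] at h5
    exact h5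
  -- `a` is a multiple of `v j`
  have hpra : ∀ x, pr x a = s * pr x (v j) := by
    intro x
    unfold pr
    rw [Finset.mul_sum]
    exact Finset.sum_congr rfl fun k _ => by rw [hs k]; ring
  have hs0 : s ≠ 0 := by
    rintro rfl
    exact ha0 (funext fun k => by rw [hs k]; simp)
  have hspos : 0 < s := by
    by_contra hneg
    push Not at hneg
    have hneg' : s < 0 := lt_of_le_of_ne hneg hs0
    obtain ⟨α', hα', β', hβ', hne, heq, hmin⟩ := hrel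
    have h1 : ∀ γ ∈ P, γ ≠ α → pr α a < pr γ a := by
      intro γ hγ hγα
      rw [hpra, hpra, hK γ hγ hγα]
      nlinarith
    by_cases h : α' = α
    · subst h
      have := h1 β' hβ' (fun h' => hne h'.symm)
      omega
    · have h2 := h1 α' hα' h
      have h3 := hmin α hα
      omega
  -- a lattice point
  obtain ⟨X, hXj, hXJ⟩ : ∃ X : Fin m → ℤ, pr X (v j) = k * T j ∧
      ∀ i ∈ J, k * T i ≤ pr X (v i) := by
    by_cases hpar : ∀ i ∈ J, ∃ s : ℤ, ∀ l, v i l = s * v j l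
    · obtain ⟨-, -, μ, hμ, -⟩ := D.topE j
      refine ⟨(k : ℤ) • (μ - (q : ℤ) • α), ?_, fun i hi => ?_⟩
      · rw [pr_smul, pr_sub, pr_smul, hT μ hμ]
      · rw [pr_smul]
        refine mul_le_mul_of_nonneg_left ?_ (by positivity)
        by_cases h : v i ≠ v j
        · rw [pr_sub, pr_smul]
          obtain ⟨s', hs'⟩ := hpar i hi
          have hpri : ∀ x, pr x (v i) = s' * pr x (v j) := by
            intro x
            unfold pr
            rw [Finset.mul_sum]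
            exact Finset.sum_congr rfl fun k _ => by rw [hs' k]; ring
          obtain ⟨α'', hα'', μ'', hμ'', hT''⟩ := D.topE i
          have h1 : pr μ'' (v i) = pr μ (v i) := by
            rw [hpri, hpri, hG μ'' hμ'' μ hμ]
          have h2 := hE4 i hi h α'' hα''
          have h3 : (q : ℤ) * pr α (v i) ≤ q * pr α'' (v i) :=
            mul_le_mul_of_nonneg_left h2 (by positivity)
          have h4 : (0 : ℤ) ≤ κ i := by positivity
          rw [h1] at hT''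
          omega
        · push Not at h
          rw [D.inj i j h, h, pr_sub, pr_smul, hT μ hμ]
    · push Not at hpar
      obtain ⟨i₁, hi₁, hno⟩ := hpar
      -- lift of `v i₁`
      let e₁ : Fin N → ℝ := fun i => ρ i + if i = i₁ then 1 else 0
      have he₁ : ∀ i ∈ J, 0 < e₁ i := by
        intro i hi
        have := hρ i hi
        show 0 < ρ i + if i = i₁ then 1 else 0
        split_ifs <;> linarith
      have hv1 : ∀ k, (v i₁ k : ℝ) = ∑ i ∈ J, e₁ i * v i k := by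
        intro k
        simp only [e₁, add_mul, Finset.sum_add_distrib, hρ0 k, zero_add, ite_mul, zero_mul,
          one_mul]
        rw [Finset.sum_ite_eq' J i₁, if_pos hi₁]
      have hv1rep : ∀ k, (v i₁ k : ℝ) = ∑ i : ↥J', e₁ i * (v (φ i) k : ℝ) +
          (∑ i ∈ J.filter (fun i => ¬ v i ≠ v j), e₁ i) * v j k := by
        intro k
        rw [hv1 k, hsplit e₁ (fun y => (y k : ℝ))]
      rcases D.lift_E hα hK hκ hG hP2 φ hE4' (v i₁) (fun i => e₁ i)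
        (fun i => (he₁ i (hmemJ i)).le) _ hv1rep with ⟨s', hs'⟩ | ⟨-, hX⟩
      · exfalso
        obtain ⟨l, hl⟩ := hno s'
        exact hl (hs' l)
      · obtain ⟨X, hXj, hX1, -⟩ := key (fun i => e₁ i) (fun i => he₁ i (hmemJ i)) hX
        exact ⟨X, hXj, hX1⟩
  obtain ⟨γ₁, hγ₁, hγ₁α⟩ := hP2
  obtain ⟨-, -, μ, hμ, -⟩ := D.topE j
  refine ⟨X, hXJ, γ₁, hγ₁, μ, hμ, ?_⟩
  have h1 := hT μ hμ
  have hq : (0 : ℤ) < q := by exact_mod_cast D.q0
  have hkZ : (0 : ℤ) < k := by exact_mod_cast hk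
  rw [hpra X, hpra μ, hpra γ₁, hXj, hK γ₁ hγ₁ hγ₁α]
  have h2 : (k : ℤ) * (s * pr μ (v j) - q * (s * (pr α (v j) - 1))) =
      s * (k * T j) + k * s * q := by
    rw [← h1]; ring
  rw [h2]
  have h3 : 0 < (k : ℤ) * s * q := by positivity
  omega

end Vale.Agent.P283.F647
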