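import Vale.Agent.P283.Z647.Cone

/-!
The smallest face of a rational polyhedral cone, which may contain lines, which contains a given
point.
-/

set_option linter.all false

namespace Vale.Agent.P283.F647

open Finset Vale.Agent.P283 Vale.Agent.P283.Z647

/-- The smallest face of a cone, which may contain lines, which contains a given point. -/
theorem cone_face' {m N : ℕ} (v : Fin N → Fin m → ℤ) (a : Fin m → ℤ) (ha : Z647.InCone v a) :
    ∃ (J : Finset (Fin N)) (c : Fin N → ℚ),
      (∀ j ∈ J, 0 < c j) ∧ (∀ j, j ∉ J → c j = 0) ∧ (∀ k, (a k : ℚ) = ∑ j, c j * v j k) ∧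
      ∃ u : Fin m → ℤ, (∀ j ∈ J, ∑ k, v j k * u k = 0) ∧ ∀ j, j ∉ J → 0 < ∑ k, v j k * u k := by
  classical
  let Rep : (Fin N → ℚ) → Prop := fun c => (∀ j, 0 ≤ c j) ∧ ∀ k, (a k : ℚ) = ∑ j, c j * v j k
  let J : Finset (Fin N) := Finset.univ.filter fun j => ∃ c, Rep c ∧ 0 < c j
  have hJ : ∀ j, j ∈ J ↔ ∃ c, Rep c ∧ 0 < c j := fun j => by simp [J]
  obtain ⟨c₀, hc₀⟩ := ha
  choose! cc hcc hcc' using fun j (hj : j ∈ J) => (hJ j).1 hj
  let n : ℚ := J.card + 1
  have hn : 0 < n := by positivity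
  let c : Fin N → ℚ := fun j => (c₀ j + ∑ i ∈ J, cc i j) / n
  have hcR : Rep c := by
    refine ⟨fun j => div_nonneg (add_nonneg (hc₀.1 j)
      (Finset.sum_nonneg fun i hi => (hcc i hi).1 j)) hn.le, fun k => ?_⟩
    have h1 : ∑ j, c j * (v j k : ℚ) = (∑ j, c₀ j * (v j k : ℚ) +
        ∑ i ∈ J, ∑ j, cc i j * (v j k : ℚ)) / n := by
      simp only [c]
      rw [Finset.sum_comm, ← Finset.sum_add_distrib, Finset.sum_div]
      refine Finset.sum_congr rfl fun j _ => ?_
      rw [div_mul_eq_mul_div, add_mul, Finset.sum_mul]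
    rw [h1, ← hc₀.2 k, Finset.sum_congr rfl fun i hi => ((hcc i hi).2 k).symm, Finset.sum_const,
      nsmul_eq_mul, eq_div_iff hn.ne']
    simp only [n]; ring
  have hcJ : ∀ j ∈ J, 0 < c j := by
    intro j hj
    refine div_pos ?_ hn
    have h1 : cc j j ≤ ∑ i ∈ J, cc i j :=
      Finset.single_le_sum (f := fun i => cc i j) (fun i hi => (hcc i hi).1 j) hj
    have h2 := hcc' j hj
    have h3 := hc₀.1 j
    linarith
  have hcJ' : ∀ j, j ∉ J → c j = 0 := by
    intro j hj
    by_contra hne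
    exact hj ((hJ j).2 ⟨c, hcR, lt_of_le_of_ne (hcR.1 j) (Ne.symm hne)⟩)
  refine ⟨J, c, hcJ, hcJ', hcR.2, ?_⟩
  -- a functional for each vector outside the face
  have hex : ∀ j : Fin N, j ∉ J → ∃ u : Fin m → ℤ, (∀ i, 0 ≤ ∑ k, v i k * u k) ∧
      ∑ k, a k * u k ≤ 0 ∧ 0 < ∑ k, v j k * u k := by
    intro j hj
    obtain ⟨u, hu⟩ := farkas_int (ι := Option (Fin N)) (fun o => o.elim (-a) v)
      (fun o => o = some j) (by
      intro x hx hxA i hi
      subst hi
      by_contra hne
      have hpos : 0 < x (some j) := lt_of_le_of_ne (hx _) (Ne.symm hne)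
      have h1 : ∀ k, x none * (a k : ℚ) = ∑ i, x (some i) * (v i k : ℚ) := by
        intro k
        have h2 := hxA k
        rw [Fintype.sum_option] at h2
        simp only [Option.elim, Pi.neg_apply] at h2
        push_cast at h2
        linarith
      rcases eq_or_lt_of_le (hx none) with h0 | h0
      · refine hj ((hJ j).2 ⟨fun i => c₀ i + x (some i),
          ⟨fun i => add_nonneg (hc₀.1 i) (hx _), fun k => ?_⟩, ?_⟩)
        · have h2 := h1 k
          rw [← h0, zero_mul] at h2
          simp only [add_mul]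
          rw [Finset.sum_add_distrib, ← h2, add_zero]
          exact hc₀.2 k
        · have := hc₀.1 j
          show 0 < c₀ j + x (some j)
          linarith
      · apply hj
        rw [hJ]
        refine ⟨fun i => x (some i) / x none, ⟨fun i => div_nonneg (hx _) h0.le, fun k => ?_⟩,
          div_pos hpos h0⟩
        have h2 : ∑ i, x (some i) / x none * (v i k : ℚ) = (∑ i, x (some i) * v i k) / x none := by
          rw [Finset.sum_div]
          exact Finset.sum_congr rfl fun i _ => by ring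
        rw [h2, eq_div_iff h0.ne', ← h1 k]; ring)
    refine ⟨u, fun i => (hu (some i)).1, ?_, (hu (some j)).2 rfl⟩
    have := (hu none).1
    simp only [Option.elim, Pi.neg_apply, neg_mul, Finset.sum_neg_distrib] at this
    linarith
  choose! uu huu1 huu2 huu3 using hex
  have hzero : ∀ j, j ∉ J → ∀ i ∈ J, ∑ k, v i k * uu j k = 0 := by
    intro j hj i hi
    have h1 : ((∑ k, a k * uu j k : ℤ) : ℚ) = ∑ i, c i * ((∑ k, v i k * uu j k : ℤ) : ℚ) := by
      push_cast
      simp only [Finset.mul_sum]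
      rw [Finset.sum_comm]
      refine Finset.sum_congr rfl fun k _ => ?_
      rw [hcR.2 k, Finset.sum_mul]
      exact Finset.sum_congr rfl fun i _ => by ring
    have h2 : ((∑ k, a k * uu j k : ℤ) : ℚ) ≤ 0 := by exact_mod_cast huu2 j hj
    rw [h1] at h2
    have h3 : ∀ i ∈ Finset.univ, 0 ≤ c i * ((∑ k, v i k * uu j k : ℤ) : ℚ) := fun i _ =>
      mul_nonneg (hcR.1 i) (by exact_mod_cast huu1 j hj i)
    have h4 := (Finset.sum_eq_zero_iff_of_nonneg h3).1 (le_antisymm h2 (Finset.sum_nonneg h3)) i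
      (Finset.mem_univ i)
    have h5 := (mul_eq_zero.1 h4).resolve_left (hcJ i hi).ne'
    exact_mod_cast h5
  have hsum : ∀ i, ∑ k, v i k * (∑ j ∈ Finset.univ.filter (fun j => j ∉ J), uu j k) =
      ∑ j ∈ Finset.univ.filter (fun j => j ∉ J), ∑ k, v i k * uu j k := by
    intro i
    simp only [Finset.mul_sum]
    exact Finset.sum_comm
  refine ⟨fun k => ∑ j ∈ Finset.univ.filter (fun j => j ∉ J), uu j k, fun i hi => ?_,
    fun i hi => ?_⟩
  · rw [hsum]
    exact Finset.sum_eq_zero fun j hj => hzero j (Finset.mem_filter.1 hj).2 i hi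
  · rw [hsum]
    exact Finset.sum_pos' (fun j hj => huu1 j (Finset.mem_filter.1 hj).2 i)
      ⟨i, Finset.mem_filter.2 ⟨Finset.mem_univ _, hi⟩, huu3 i hi⟩

end Vale.Agent.P283.F647
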