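import Vale.Agent.P283.F647.Dat

/-!
Lower bounds at all lattice points of the relative interior of a face.
-/

set_option linter.all false

namespace Vale.Agent.P283.F647

open Finset hiding val
open Vale.Agent.P283.Z647 (cone_dual)

variable {m N : ℕ} {q : ℕ} {δ : ℝ} {P Gs Es : Finset (Fin m → ℤ)} {r : ℕ}
  {v : Fin N → Fin m → ℤ} {T : Fin N → ℤ} {κ : Fin N → ℕ}

theorem exists_min {P : Finset (Fin m → ℤ)} (hP : P.Nonempty) (b : Fin m → ℤ) :
    ∃ α ∈ P, ∀ β ∈ P, pr α b ≤ pr β b := by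
  obtain ⟨α, hα, h⟩ := P.exists_min_image (fun β => pr β b) hP
  exact ⟨α, hα, h⟩

theorem unique_of_not_rel {P : Finset (Fin m → ℤ)} {b : Fin m → ℤ} {α : Fin m → ℤ}
    (hα : α ∈ P) (hmin : ∀ β ∈ P, pr α b ≤ pr β b) (hno : ¬ Rel P b) :
    ∀ β ∈ P, β ≠ α → pr α b < pr β b := by
  intro β hβ hne
  refine lt_of_le_of_ne (hmin β hβ) fun heq => hno ⟨α, hα, β, hβ, hne.symm, heq, hmin⟩

/-- No positive relation. -/
theorem IsData.low_pos (D : IsData q δ P Gs Es r v T κ) {ι : Type} [Fintype ι] (φ : ι → Fin N)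
    (hno : ¬ ∃ ρ : ι → ℝ, (∀ j, 0 < ρ j) ∧ ∀ k, ∑ j, ρ j * (v (φ j) k : ℝ) = 0)
    {a₀ : Fin m → ℤ} {c₀ : ι → ℝ} (hc₀ : ∀ j, 0 < c₀ j)
    (ha₀ : ∀ k, (a₀ k : ℝ) = ∑ j, c₀ j * v (φ j) k) (hrel : Rel P a₀)
    (c : ι → ℝ) (hc : ∀ j, 0 < c j) (b : Fin m → ℤ)
    (hb : ∀ k, (b k : ℝ) = ∑ j, c j * v (φ j) k) :
    ∃ α ∈ P, ∃ μ ∈ Gs, min δ q ≤
      ∑ j, c j * ((pr (μ - (q : ℤ) • α) (v (φ j)) : ℝ) - T (φ j)) := by
  classical
  have hPne : P.Nonempty := by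
    obtain ⟨α, hα, -⟩ := hrel
    exact ⟨α, hα⟩
  have hr : (0 : ℝ) < r := by exact_mod_cast D.r0
  obtain ⟨α, hα, hmin⟩ := exists_min hPne b
  have hbcone : Z647.InCone v b := cone_comb (fun i => cone_ray v (φ i)) (fun i => (hc i).le) hb
  have hb0 : b ≠ 0 := by
    rintro rfl
    exact hno ⟨c, hc, fun k => by rw [← hb k]; simp⟩
  refine ⟨α, hα, ?_⟩
  by_cases hbr : Rel P b
  · obtain ⟨μ, hμ, x, hx, hle⟩ := D.lc b hbcone hb0 hbr α hα hmin
    exact ⟨μ, hμ, D.val_of φ (fun i => (hc i).le) hb hx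
      (le_trans (mul_le_mul_of_nonneg_right (min_le_left _ _) hr.le) hle)⟩
  · have huniq := unique_of_not_rel hα hmin hbr
    obtain ⟨j, β₀, hβ₀, hlt⟩ := exists_drop hc₀ ha₀ hrel hb hα huniq
    rcases D.walk hbcone hα huniq hβ₀ hlt with ⟨μ, hμ, x, hx, hle⟩ | ⟨n, p, hn, hp, hnp⟩
    · exact ⟨μ, hμ, D.val_of φ (fun i => (hc i).le) hb hx hle⟩
    · exfalso
      apply hno
      refine ⟨fun i => n * c i + if i = j then (p : ℝ) else 0, fun i => ?_, fun k => ?_⟩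
      · have h1 := hc i
        have hnR : (0 : ℝ) < n := by exact_mod_cast hn
        have h2 : 0 < (n : ℝ) * c i := mul_pos hnR h1
        show 0 < (n : ℝ) * c i + if i = j then (p : ℝ) else 0
        split_ifs <;> positivity
      · have h1 : ∑ i, ((n : ℝ) * c i + if i = j then (p : ℝ) else 0) * (v (φ i) k : ℝ) =
            n * ∑ i, c i * (v (φ i) k : ℝ) + p * v (φ j) k := by
          simp only [add_mul, Finset.sum_add_distrib, ite_mul, zero_mul, Finset.sum_ite_eq',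
            Finset.mem_univ, if_true, Finset.mul_sum]
          congr 1
          exact Finset.sum_congr rfl fun _ _ => by ring
        rw [h1, ← hb k]
        exact_mod_cast hnp k

/-- The exceptional configuration. -/
def EType (q : ℕ) (P Gs : Finset (Fin m → ℤ)) (v : Fin N → Fin m → ℤ) (κ : Fin N → ℕ)
    {ι : Type} (φ : ι → Fin N) (j : ι) (α : Fin m → ℤ) : Prop :=
  (∀ γ ∈ P, γ ≠ α → pr γ (v (φ j)) = pr α (v (φ j)) - 1) ∧ κ (φ j) = q ∧
  (∀ μ ∈ Gs, ∀ μ' ∈ Gs, pr μ (v (φ j)) = pr μ' (v (φ j))) ∧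
  ∀ i, v (φ i) ≠ v (φ j) → ∀ γ ∈ P, pr α (v (φ i)) ≤ pr γ (v (φ i))

/-- The other case. -/
theorem IsData.low_cpl (D : IsData q δ P Gs Es r v T κ) {ι : Type} [Fintype ι] (φ : ι → Fin N)
    (hno : ¬ ∃ j, ∃ α ∈ P, EType q P Gs v κ φ j α)
    {a₀ : Fin m → ℤ} {c₀ : ι → ℝ} (hc₀ : ∀ j, 0 < c₀ j)
    (ha₀ : ∀ k, (a₀ k : ℝ) = ∑ j, c₀ j * v (φ j) k) (hrel : Rel P a₀)
    (c : ι → ℝ) (hc : ∀ j, 0 < c j) (b : Fin m → ℤ) (hb0 : b ≠ 0)
    (hb : ∀ k, (b k : ℝ) = ∑ j, c j * v (φ j) k) :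
    ∃ α ∈ P, ∃ μ ∈ Gs, min δ (1 / 2) ≤
      ∑ j, c j * ((pr (μ - (q : ℤ) • α) (v (φ j)) : ℝ) - T (φ j)) := by
  classical
  have hPne : P.Nonempty := by
    obtain ⟨α, hα, -⟩ := hrel
    exact ⟨α, hα⟩
  have hr : (0 : ℝ) < r := by exact_mod_cast D.r0
  have hq : (1 : ℝ) ≤ q := by exact_mod_cast D.q0
  have hδq : min δ (1 / 2) ≤ min δ (q : ℝ) := min_le_min_left _ (by linarith)
  obtain ⟨α, hα, hmin⟩ := exists_min hPne b
  have hbcone : Z647.InCone v b := cone_comb (fun i => cone_ray v (φ i)) (fun i => (hc i).le) hb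
  refine ⟨α, hα, ?_⟩
  by_cases hbr : Rel P b
  · obtain ⟨μ, hμ, x, hx, hle⟩ := D.lc b hbcone hb0 hbr α hα hmin
    exact ⟨μ, hμ, D.val_of φ (fun i => (hc i).le) hb hx
      (le_trans (mul_le_mul_of_nonneg_right (min_le_left _ _) hr.le) hle)⟩
  · have huniq := unique_of_not_rel hα hmin hbr
    obtain ⟨j, β₀, hβ₀, hlt⟩ := exists_drop hc₀ ha₀ hrel hb hα huniq
    rcases D.walk hbcone hα huniq hβ₀ hlt with ⟨μ, hμ, x, hx, hle⟩ | ⟨n, p, hn, hp, hnp⟩
    · exact ⟨μ, hμ, le_trans hδq (D.val_of φ (fun i => (hc i).le) hb hx hle)⟩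
    rcases D.opp φ (fun i => (hc i).le) hb hα huniq hn hp hnp hβ₀ hlt with
      ⟨μ, hμ, hle⟩ | ⟨hK, hκ, hG⟩
    · exact ⟨μ, hμ, le_trans (min_le_right _ _) hle⟩
    -- another vector
    obtain ⟨i, hi, γ, hγ, hγlt⟩ : ∃ i, v (φ i) ≠ v (φ j) ∧ ∃ γ ∈ P,
        pr γ (v (φ i)) < pr α (v (φ i)) := by
      by_contra hall
      push Not at hall
      exact hno ⟨j, α, hα, hK, hκ, hG, hall⟩
    rcases D.walk hbcone hα huniq hγ hγlt with ⟨μ, hμ, x, hx, hle⟩ | ⟨n', p', hn', hp', hnp'⟩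
    · exact ⟨μ, hμ, le_trans hδq (D.val_of φ (fun i => (hc i).le) hb hx hle)⟩
    rcases D.opp φ (fun i => (hc i).le) hb hα huniq hn' hp' hnp' hγ hγlt with
      ⟨μ, hμ, hle⟩ | ⟨hK', -, -⟩
    · exact ⟨μ, hμ, le_trans (min_le_right _ _) hle⟩
    exfalso
    apply hi
    have hγα : γ ≠ α := by
      rintro rfl
      exact lt_irrefl _ hγlt
    have hpair : ∀ (w : Fin m → ℤ) (n p : ℕ), (∀ i, (n : ℤ) * b i + p * w i = 0) → ∀ x,
        (n : ℤ) * pr x b + p * pr x w = 0 := by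
      intro w n p h x
      rw [← pr_comb]
      have : (fun i => (n : ℤ) * b i + p * w i) = 0 := funext h
      rw [this, pr_zero_right]
    set Δ : ℤ := pr γ b - pr α b with hΔ
    have hΔ0 : 0 < Δ := by have := huniq γ hγ hγα; omega
    have e1 : (p : ℤ) = n * Δ := by
      have h1 := hpair _ n p hnp γ
      have h2 := hpair _ n p hnp α
      rw [hK γ hγ hγα] at h1
      rw [hΔ]
      linear_combination h2 - h1
    have e2 : (p' : ℤ) = n' * Δ := by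
      have h1 := hpair _ n' p' hnp' γ
      have h2 := hpair _ n' p' hnp' α
      rw [hK' γ hγ hγα] at h1
      rw [hΔ]
      linear_combination h2 - h1
    funext l
    have f1 := hnp l
    have f2 := hnp' l
    rw [e1] at f1
    rw [e2] at f2
    have hnZ : (n : ℤ) ≠ 0 := by exact_mod_cast hn.ne'
    have hnZ' : (n' : ℤ) ≠ 0 := by exact_mod_cast hn'.ne'
    have g1 : b l + Δ * v (φ j) l = 0 := by
      have : (n : ℤ) * (b l + Δ * v (φ j) l) = 0 := by linear_combination f1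
      exact (mul_eq_zero.1 this).resolve_left hnZ
    have g2 : b l + Δ * v (φ i) l = 0 := by
      have : (n' : ℤ) * (b l + Δ * v (φ i) l) = 0 := by linear_combination f2
      exact (mul_eq_zero.1 this).resolve_left hnZ'
    have g3 : Δ * (v (φ i) l - v (φ j) l) = 0 := by linear_combination g2 - g1
    have g4 := (mul_eq_zero.1 g3).resolve_left hΔ0.ne'
    omega

end Vale.Agent.P283.F647
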