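import Vale.Agent.P283.F647.Exc
import Vale.Agent.P283.F647.Face

/-!
The existence of bounded exponents, for cones which may contain lines.
-/

set_option linter.all false

namespace Vale.Agent.P283.F647

open Finset hiding val
open Vale.Agent.P283.Z647 (cone_dual)

theorem sum_coe {N : ℕ} (J : Finset (Fin N)) (F : Fin N → ℝ) :
    ∑ i : ↥J, F (i : Fin N) = ∑ i ∈ J, F i := Finset.sum_coe_sort J F

theorem point_abs (N q : ℕ) {δ : ℝ} (hδ : 0 < δ) (hq : 0 < q) : ∃ k₀ : ℕ, 0 < k₀ ∧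
    ∀ (m : ℕ) (P Gs Es : Finset (Fin m → ℤ)) (r : ℕ) (v : Fin N → Fin m → ℤ)
      (T : Fin N → ℤ) (κ : Fin N → ℕ), IsData q δ P Gs Es r v T κ →
      ∀ k : ℕ, k₀ ∣ k → 0 < k → ∀ a : Fin m → ℤ, Z647.InCone v a → a ≠ 0 → Rel P a →
        ∃ X : Fin m → ℤ, (∀ j, k * T j ≤ pr X (v j)) ∧
          ∃ α' ∈ P, ∃ μ ∈ Gs, pr X a < k * (pr μ a - q * pr α' a) := by
  classical
  have hqR : (0 : ℝ) < q := by exact_mod_cast hq
  have hδ1 : 0 < min δ (q : ℝ) := lt_min hδ hqR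
  have hδ2 : 0 < min δ (1 / 2 : ℝ) := lt_min hδ (by norm_num)
  choose k1 hk1 hk1' using fun (x : (Fin N → Fin (q + 1)) × Finset (Fin N)) =>
    exists_cvxAt (fun i : ↥x.2 => ((x.1 i : Fin (q + 1)) : ℕ)) hδ1
  choose k2 hk2 hk2' using fun (x : (Fin N → Fin (q + 1)) × Finset (Fin N)) =>
    exists_cplAt (fun i : ↥x.2 => ((x.1 i : Fin (q + 1)) : ℕ)) hδ2
  choose k3 hk3 hk3' using fun (x : (Fin N → Fin (q + 1)) × Finset (Fin N)) =>
    exists_cplAt (fun i : ↥x.2 => ((x.1 i : Fin (q + 1)) : ℕ)) hδ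
  refine ⟨∏ x, (k1 x * k2 x * k3 x), Finset.prod_pos fun x _ =>
    Nat.mul_pos (Nat.mul_pos (hk1 x) (hk2 x)) (hk3 x), ?_⟩
  intro m P Gs Es r v T κ D k hk hk0 a ha ha0 hrel
  let κ' : Fin N → Fin (q + 1) := fun j => ⟨κ j, Nat.lt_succ_of_le (D.κq j)⟩
  have hdvd : ∀ J, k1 (κ', J) * k2 (κ', J) * k3 (κ', J) ∣ k := fun J =>
    dvd_trans (Finset.dvd_prod_of_mem (fun x => k1 x * k2 x * k3 x)
      (Finset.mem_univ (κ', J))) hk
  have hd1 : ∀ J, k1 (κ', J) ∣ k := fun J =>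
    dvd_trans (Dvd.intro _ (by ring : k1 (κ', J) * (k2 (κ', J) * k3 (κ', J)) = _)) (hdvd J)
  have hd2 : ∀ J, k2 (κ', J) ∣ k := fun J =>
    dvd_trans (Dvd.intro _ (by ring : k2 (κ', J) * (k1 (κ', J) * k3 (κ', J)) = _)) (hdvd J)
  have hd3 : ∀ J, k3 (κ', J) ∣ k := fun J =>
    dvd_trans (Dvd.intro _ (by ring : k3 (κ', J) * (k1 (κ', J) * k2 (κ', J)) = _)) (hdvd J)
  obtain ⟨J, cQ, hcQ, hcQ', haQ, u, hu, hu'⟩ := cone_face' v a ha
  let c : Fin N → ℝ := fun j => (cQ j : ℝ)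
  have hc : ∀ j ∈ J, 0 < c j := fun j hj => by
    have := hcQ j hj
    show (0 : ℝ) < ((cQ j : ℚ) : ℝ)
    exact_mod_cast this
  have hca : ∀ k, (a k : ℝ) = ∑ j ∈ J, c j * v j k := by
    intro k
    have h1 := congrArg (Rat.cast : ℚ → ℝ) (haQ k)
    push_cast at h1
    rw [h1]
    symm
    apply Finset.sum_subset (Finset.subset_univ J)
    intro j _ hj
    show ((cQ j : ℚ) : ℝ) * (v j k : ℝ) = 0
    rw [hcQ' j hj]; simp
  have hcaJ : ∀ k, (a k : ℝ) = ∑ j : ↥J, c j * v (j : Fin N) k := by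
    intro k
    rw [hca k, sum_coe J fun j => c j * v j k]
  have hPne : P.Nonempty := by
    obtain ⟨α, hα, -⟩ := hrel
    exact ⟨α, hα⟩
  -- a solution on the face
  have hface : ∃ X : Fin m → ℤ, (∀ j ∈ J, k * T j ≤ pr X (v j)) ∧
      ∃ α' ∈ P, ∃ μ ∈ Gs, pr X a < k * (pr μ a - q * pr α' a) := by
    let Ls : Finset (Fin m → ℤ) := (P ×ˢ Gs).image fun x => x.2 - (q : ℤ) • x.1
    have hLs : ∀ ℓ ∈ Ls, ∃ α ∈ P, ∃ μ ∈ Gs, ℓ = μ - (q : ℤ) • α := by
      intro ℓ hℓ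
      obtain ⟨x, hx, rfl⟩ := Finset.mem_image.1 hℓ
      obtain ⟨h1, h2⟩ := Finset.mem_product.1 hx
      exact ⟨x.1, h1, x.2, h2, rfl⟩
    have hLs' : ∀ α ∈ P, ∀ μ ∈ Gs, μ - (q : ℤ) • α ∈ Ls := fun α hα μ hμ =>
      Finset.mem_image.2 ⟨(α, μ), Finset.mem_product.2 ⟨hα, hμ⟩, rfl⟩
    have htop : ∀ ℓ ∈ Ls, ∀ j : ↥J, pr ℓ (v j) ≤ T j + κ j := by
      intro ℓ hℓ j
      obtain ⟨α, hα, μ, hμ, rfl⟩ := hLs ℓ hℓ
      rw [pr_sub, pr_smul]
      exact D.top j α hα μ hμ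
    have hconcl : ∀ X : Fin m → ℤ, (∃ ℓ ∈ Ls, ∑ j : ↥J, c j * (pr X (v j) : ℝ) <
        k * ∑ j : ↥J, c j * (pr ℓ (v j) : ℝ)) →
        ∃ α' ∈ P, ∃ μ ∈ Gs, pr X a < k * (pr μ a - q * pr α' a) := by
      rintro X ⟨ℓ, hℓ, hlt⟩
      obtain ⟨α, hα, μ, hμ, rfl⟩ := hLs ℓ hℓ
      refine ⟨α, hα, μ, hμ, ?_⟩
      rw [← pr_real hcaJ, ← pr_real hcaJ] at hlt
      have h1 : pr X a < k * pr (μ - (q : ℤ) • α) a := by exact_mod_cast hlt
      rw [pr_sub, pr_smul] at h1
      exact h1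
    by_cases hρ : ∃ ρ : ↥J → ℝ, (∀ j, 0 < ρ j) ∧ ∀ k, ∑ j, ρ j * (v (j : Fin N) k : ℝ) = 0
    · by_cases hE : ∃ j, ∃ α ∈ P, EType q P Gs v κ (fun i : ↥J => (i : Fin N)) j α
      · obtain ⟨j, α, hα, hK, hκ, hG, hE4⟩ := hE
        obtain ⟨ρ, hρ1, hρ2⟩ := hρ
        refine D.etype_point J j.2 hα hK hκ hG (fun i hi hne => hE4 ⟨i, hi⟩ hne)
          (fun i => if h : i ∈ J then ρ ⟨i, h⟩ else 0) (fun i hi => ?_) (fun l => ?_) hk0
          (hk3' (κ', _) k (hd3 _) hk0) a ha0 hrel c hc hca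
        · simp only [hi, dif_pos]
          exact hρ1 _
        · rw [← hρ2 l, ← sum_coe J]
          refine Finset.sum_congr rfl fun i _ => ?_
          simp only [i.2, dif_pos]
      · -- the general complete case
        obtain ⟨α, hα, hmin⟩ := exists_min hPne a
        obtain ⟨μ, hμ, x, hx, hle⟩ := D.lc a ha ha0 hrel α hα hmin
        have hr : (0 : ℝ) < r := by exact_mod_cast D.r0
        obtain ⟨X, -, hX1, hX2⟩ := hk2' (κ', J) k (hd2 J) hk0 m (fun i => v i) ⊤ Ls (fun i => T i)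
          (fun _ _ _ _ => AddSubgroup.mem_top _) htop
          (by
            obtain ⟨ρ, hρ1, hρ2⟩ := hρ
            refine ⟨ρ, hρ1, fun u _ => ?_⟩
            have h2 : ∑ i : ↥J, ρ i * (pr u (v i) : ℝ) =
                ∑ k, (u k : ℝ) * ∑ i : ↥J, ρ i * (v (i : Fin N) k : ℝ) := by
              unfold pr
              push_cast
              simp only [Finset.mul_sum]
              rw [Finset.sum_comm]
              exact Finset.sum_congr rfl fun _ _ => Finset.sum_congr rfl fun _ _ => by ring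
            rw [h2]
            exact Finset.sum_eq_zero fun k _ => by rw [hρ2 k, mul_zero])
          (by
            intro c' hc' hint hne
            have hz : ∀ l, ∃ z : ℤ, (z : ℝ) = ∑ i : ↥J, c' i * (v (i : Fin N) l : ℝ) := by
              intro l
              obtain ⟨z, hz⟩ := hint (Pi.single l 1) (AddSubgroup.mem_top _)
              refine ⟨z, ?_⟩
              rw [← hz]
              exact Finset.sum_congr rfl fun i _ => by rw [pr_single]
            choose z hz using hz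
            have hz0 : z ≠ 0 := by
              intro h0
              apply hne
              intro u _
              rw [← pr_real hz, h0, pr_zero_right]
              simp
            obtain ⟨α', hα', μ', hμ', hle'⟩ := D.low_cpl (fun i : ↥J => (i : Fin N)) hE
              (fun i => hc i i.2) hcaJ hrel c' hc' z hz0 hz
            exact ⟨_, hLs' α' hα' μ' hμ', hle'⟩)
          (fun i => c i) (fun i => hc i i.2)
          ⟨r, (q : ℤ) • x, fun _ _ => AddSubgroup.mem_top _, fun i => by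
            rw [pr_smul]; exact D.feas i x hx, _, hLs' α hα μ hμ, by
            have h1 := pr_real hcaJ ((q : ℤ) • x)
            have h2 := pr_real hcaJ (μ - (q : ℤ) • α)
            rw [← h1, ← h2, pr_smul, pr_sub, pr_smul]
            push_cast
            have h3 : 0 < δ * r := mul_pos hδ hr
            linarith⟩
        exact ⟨X, fun j hj => hX1 ⟨j, hj⟩, hconcl X hX2⟩
    · obtain ⟨X, hX1, hX2⟩ := hk1' (κ', J) k (hd1 J) hk0 m (fun i => v i) Ls (fun i => T i) htop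
        (by
          intro c' hc' b hb
          obtain ⟨α', hα', μ', hμ', hle'⟩ := D.low_pos (fun i : ↥J => (i : Fin N)) hρ
            (fun i => hc i i.2) hcaJ hrel c' hc' b hb
          exact ⟨_, hLs' α' hα' μ' hμ', hle'⟩)
        (fun i => c i) (fun i => hc i i.2)
      exact ⟨X, fun j hj => hX1 ⟨j, hj⟩, hconcl X hX2⟩
  -- lifting
  obtain ⟨X, hX1, α', hα', μ, hμ, hX2⟩ := hface
  have huv : ∀ j, pr u (v j) = ∑ k, v j k * u k := fun j =>
    Finset.sum_congr rfl fun k _ => mul_comm _ _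
  have hua : pr u a = 0 := by
    have h1 : (pr u a : ℝ) = 0 := by
      rw [pr_real hcaJ]
      refine Finset.sum_eq_zero fun j _ => ?_
      rw [huv, hu j j.2]; simp
    exact_mod_cast h1
  let t : ℤ := ∑ j, |k * T j - pr X (v j)|
  have ht : ∀ j, |k * T j - pr X (v j)| ≤ t := fun j =>
    Finset.single_le_sum (f := fun j => |k * T j - pr X (v j)|) (fun j _ => abs_nonneg _)
      (Finset.mem_univ j)
  have ht0 : 0 ≤ t := Finset.sum_nonneg fun j _ => abs_nonneg _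
  refine ⟨X + t • u, fun j => ?_, α', hα', μ, hμ, ?_⟩
  · rw [pr_add, pr_smul, huv]
    by_cases hj : j ∈ J
    · rw [hu j hj, mul_zero, add_zero]; exact hX1 j hj
    · have h1 := hu' j hj
      have h2 := ht j
      have h3 := le_abs_self (k * T j - pr X (v j))
      nlinarith
  · rw [pr_add, pr_smul, hua, mul_zero, add_zero]; exact hX2

end Vale.Agent.P283.F647
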