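import Vale.Agent.P283.Z647.Kron

/-!
Separation of lattices by characters, and lattices with a dual lattice without short vectors.
-/

set_option linter.all false

namespace Vale.Agent.P283.F647

open Finset Complex
open Vale.Agent.P283.H647
open Vale.Agent.P283.Z647

variable {ι : Type} [Fintype ι]

/-- `t` is in the dual lattice of `M`. -/
def InDual (M : AddSubgroup (ι → ℤ)) (t : ι → ℝ) : Prop := ∀ m ∈ M, ∃ z : ℤ, ∑ j, t j * m j = z

/-- `t` is orthogonal to `M`. -/
def Orth (M : AddSubgroup (ι → ℤ)) (t : ι → ℝ) : Prop := ∀ m ∈ M, ∑ j, t j * (m j : ℝ) = 0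

theorem Orth.inDual {M : AddSubgroup (ι → ℤ)} {t : ι → ℝ} (h : Orth M t) : InDual M t :=
  fun m hm => ⟨0, by rw [h m hm]; simp⟩

theorem InDual.add {M : AddSubgroup (ι → ℤ)} {t s : ι → ℝ} (h : InDual M t) (h' : InDual M s) :
    InDual M (fun j => t j + s j) := by
  intro m hm
  obtain ⟨z, hz⟩ := h m hm
  obtain ⟨z', hz'⟩ := h' m hm
  refine ⟨z + z', ?_⟩
  push_cast
  rw [← hz, ← hz', ← Finset.sum_add_distrib]
  exact Finset.sum_congr rfl fun j _ => by ring

theorem InDual.sub {M : AddSubgroup (ι → ℤ)} {t s : ι → ℝ} (h : InDual M t) (h' : InDual M s) :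
    InDual M (fun j => t j - s j) := by
  intro m hm
  obtain ⟨z, hz⟩ := h m hm
  obtain ⟨z', hz'⟩ := h' m hm
  refine ⟨z - z', ?_⟩
  push_cast
  rw [← hz, ← hz', ← Finset.sum_sub_distrib]
  exact Finset.sum_congr rfl fun j _ => by ring

theorem InDual.int {M : AddSubgroup (ι → ℤ)} (z : ι → ℤ) : InDual M (fun j => (z j : ℝ)) := by
  intro m hm
  exact ⟨∑ j, z j * m j, by push_cast; rfl⟩

/-- A vector outside a subgroup is separated from it by a point of the dual lattice. -/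
theorem exists_sep (M : AddSubgroup (ι → ℤ)) (m₀ : ι → ℤ) (h : m₀ ∉ M) :
    ∃ t : ι → ℝ, InDual M t ∧ ¬ ∃ z : ℤ, ∑ j, t j * (m₀ j : ℝ) = z := by
  classical
  obtain ⟨r, hr, hr'⟩ := exists_modulus M m₀ h
  let M' : AddSubgroup (ι → ℤ) :=
    { carrier := {x | ∃ u : ι → ℤ, x - (r : ℤ) • u ∈ M}
      zero_mem' := ⟨0, by simpa using M.zero_mem⟩
      add_mem' := by
        rintro a b ⟨u, hu⟩ ⟨v, hv⟩
        refine ⟨u + v, ?_⟩
        have := M.add_mem hu hv
        have h1 : a + b - (r : ℤ) • (u + v) = a - (r : ℤ) • u + (b - (r : ℤ) • v) := by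
          rw [smul_add]; abel
        rw [h1]; exact this
      neg_mem' := by
        rintro a ⟨u, hu⟩
        refine ⟨-u, ?_⟩
        have := M.neg_mem hu
        have h1 : -a - (r : ℤ) • (-u) = -(a - (r : ℤ) • u) := by
          rw [smul_neg]; abel
        rw [h1]; exact this }
  haveI := finite_quotient M' r hr (fun u => ⟨u, by rw [sub_self]; exact M.zero_mem⟩)
  haveI : Fintype ((ι → ℤ) ⧸ M') := Fintype.ofFinite _
  have hne : (QuotientAddGroup.mk m₀ : (ι → ℤ) ⧸ M') ≠ 0 := by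
    intro h0
    obtain ⟨u, hu⟩ := (QuotientAddGroup.eq_zero_iff _).1 h0
    exact hr' r dvd_rfl u hu
  obtain ⟨ψ, hψ⟩ := AddChar.exists_apply_ne_zero.2 hne
  have hnorm : ∀ g, ‖ψ g‖ = 1 := fun g => AddChar.norm_apply ψ g
  let t : ι → ℝ := fun j => arg (ψ (QuotientAddGroup.mk (Pi.single j 1))) / (2 * Real.pi)
  have h1 : ∀ j, cexp (2 * Real.pi * I * (t j : ℝ)) = ψ (QuotientAddGroup.mk (Pi.single j 1)) := by
    intro j
    have h2 : (2 * Real.pi * I * (t j : ℝ) : ℂ) =
        arg (ψ (QuotientAddGroup.mk (Pi.single j 1))) * I := by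
      simp only [t]
      push_cast
      have : (Real.pi : ℂ) ≠ 0 := by exact_mod_cast Real.pi_ne_zero
      field_simp
    rw [h2]
    have h3 := Complex.norm_mul_exp_arg_mul_I (ψ (QuotientAddGroup.mk (Pi.single j 1)))
    rw [hnorm, Complex.ofReal_one, one_mul] at h3
    exact h3
  have h2 : ∀ u : ι → ℤ, cexp (2 * Real.pi * I * ((∑ j, t j * u j : ℝ) : ℂ)) =
      ψ (QuotientAddGroup.mk u) := by
    intro u
    rw [← char_single M' ψ (char_ne M' ψ) u]
    simp only [← h1]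
    have h4 : ∀ j, cexp (2 * Real.pi * I * (t j : ℝ)) ^ u j
        = cexp (2 * Real.pi * I * ((t j * u j : ℝ) : ℂ)) := by
      intro j
      rw [← Complex.exp_int_mul]
      congr 1
      push_cast
      ring
    simp only [h4]
    rw [← Complex.exp_sum, ← Finset.mul_sum]
    push_cast
    rfl
  have h3 : ∀ u : ι → ℤ, (∃ z : ℤ, ∑ j, t j * (u j : ℝ) = z) ↔
      ψ (QuotientAddGroup.mk u) = 1 := by
    intro u
    rw [← h2 u, Complex.exp_eq_one_iff]
    have h6 : (2 * Real.pi * I : ℂ) ≠ 0 := Complex.two_pi_I_ne_zero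
    constructor
    · rintro ⟨z, hz⟩
      exact ⟨z, by rw [hz]; push_cast; ring⟩
    · rintro ⟨z, hz⟩
      refine ⟨z, ?_⟩
      have h7 : (2 * Real.pi * I : ℂ) * ((∑ j, t j * u j : ℝ) : ℂ) = 2 * Real.pi * I * (z : ℂ) := by
        rw [hz]; ring
      have h8 := mul_left_cancel₀ h6 h7
      exact_mod_cast h8
  refine ⟨t, fun m hm => ?_, ?_⟩
  · rw [h3]
    have h4 : (QuotientAddGroup.mk m : (ι → ℤ) ⧸ M') = 0 :=
      (QuotientAddGroup.eq_zero_iff _).2 ⟨0, by simpa using hm⟩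
    rw [h4, AddChar.map_zero_eq_one]
  · rw [h3]
    exact hψ

/-- If the dual lattice has no short vectors modulo the orthogonal space, then `M` is generated by
short vectors. -/
theorem bounded_gen {η : ℝ} (hη : 0 < η) : ∃ K : ℕ, ∀ M : AddSubgroup (ι → ℤ),
    (∀ t : ι → ℝ, InDual M t → (∀ j, |t j| < η) → Orth M t) →
    M ≤ AddSubgroup.closure {m | m ∈ M ∧ ∀ j, |m j| ≤ K} := by
  classical
  obtain ⟨K, hK⟩ := kron' (ι := ι) (show (0 : ℝ) < η / 4 by linarith)
  refine ⟨K, fun M hM => ?_⟩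
  set MK := AddSubgroup.closure {m | m ∈ M ∧ ∀ j, |m j| ≤ K} with hMK
  have hle : MK ≤ M := by
    rw [hMK, AddSubgroup.closure_le]
    exact fun m hm => hm.1
  intro m₀ hm₀
  by_contra hno
  obtain ⟨t, ht, htm⟩ := exists_sep MK m₀ hno
  -- approximation of points of the dual of `MK`
  have happ : ∀ s : ι → ℝ, InDual MK s → ∃ y : ι → ℝ, InDual M y ∧ ∀ j, |y j - s j| < η / 4 := by
    intro s hs
    exact hK M s fun m hm hmK => hs m (AddSubgroup.subset_closure ⟨hm, hmK⟩)
  obtain ⟨y, hy, hyt⟩ := happ t ht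
  let u : ι → ℝ := fun j => t j - y j
  have hyMK : InDual MK y := fun m hm => hy m (hle hm)
  have hu : InDual MK u := ht.sub hyMK
  have humk : ∀ n : ℕ, InDual MK (fun j => n * u j) := by
    intro n m hm
    obtain ⟨z, hz⟩ := hu m hm
    refine ⟨n * z, ?_⟩
    push_cast
    rw [← hz, Finset.mul_sum]
    exact Finset.sum_congr rfl fun j _ => by ring
  choose Y hY hY' using fun n : ℕ => happ _ (humk n)
  have hus : ∀ j, |u j| < η / 4 := by
    intro j
    have := hyt j
    rw [abs_sub_comm] at this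
    exact this
  have horth : ∀ n : ℕ, Orth M (Y n) := by
    intro n
    induction n with
    | zero =>
      refine hM _ (hY 0) fun j => ?_
      have h1 := hY' 0 j
      simp only [Nat.cast_zero, zero_mul, sub_zero] at h1
      linarith
    | succ n ih =>
      have h1 : Orth M (fun j => Y (n + 1) j - Y n j) := by
        refine hM _ ((hY (n + 1)).sub (hY n)) fun j => ?_
        have h2 := abs_lt.1 (hY' (n + 1) j)
        have h3 := abs_lt.1 (hY' n j)
        have h4 := abs_lt.1 (hus j)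
        push_cast at h2
        rw [abs_lt]
        constructor <;> linarith [h2.1, h2.2, h3.1, h3.2, h4.1, h4.2]
      intro m hm
      have h2 := h1 m hm
      have h3 := ih m hm
      have h4 : ∑ j, (Y (n + 1) j - Y n j) * (m j : ℝ) =
          ∑ j, Y (n + 1) j * (m j : ℝ) - ∑ j, Y n j * (m j : ℝ) := by
        rw [← Finset.sum_sub_distrib]
        exact Finset.sum_congr rfl fun j _ => by ring
      rw [h4, h3, sub_zero] at h2
      exact h2
  -- the pairing with `m₀` vanishes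
  set C : ℝ := ∑ j, η / 4 * |(m₀ j : ℝ)| with hC
  have hbound : ∀ n : ℕ, n * |∑ j, u j * (m₀ j : ℝ)| ≤ C := by
    intro n
    have h1 := horth n m₀ hm₀
    have h2 : n * ∑ j, u j * (m₀ j : ℝ) = ∑ j, (n * u j - Y n j) * (m₀ j : ℝ) := by
      have h3 : ∑ j, (n * u j - Y n j) * (m₀ j : ℝ) =
          n * ∑ j, u j * (m₀ j : ℝ) - ∑ j, Y n j * (m₀ j : ℝ) := by
        rw [Finset.mul_sum, ← Finset.sum_sub_distrib]
        exact Finset.sum_congr rfl fun j _ => by ring
      rw [h3, h1, sub_zero]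
    have h3 : (n : ℝ) * |∑ j, u j * (m₀ j : ℝ)| = |n * ∑ j, u j * (m₀ j : ℝ)| := by
      rw [abs_mul, Nat.abs_cast]
    rw [h3, h2]
    refine (Finset.abs_sum_le_sum_abs _ _).trans ?_
    refine Finset.sum_le_sum fun j _ => ?_
    rw [abs_mul]
    refine mul_le_mul_of_nonneg_right ?_ (abs_nonneg _)
    have h4 := hY' n j
    rw [abs_sub_comm] at h4
    exact h4.le
  have hzero : ∑ j, u j * (m₀ j : ℝ) = 0 := by
    by_contra hne
    have hpos : 0 < |∑ j, u j * (m₀ j : ℝ)| := abs_pos.2 hne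
    obtain ⟨n, hn⟩ := exists_nat_gt (C / |∑ j, u j * (m₀ j : ℝ)|)
    rw [div_lt_iff₀ hpos] at hn
    linarith [hbound n]
  apply htm
  obtain ⟨z, hz⟩ := hy m₀ hm₀
  refine ⟨z, ?_⟩
  rw [← hz]
  have h1 : ∑ j, u j * (m₀ j : ℝ) = ∑ j, t j * (m₀ j : ℝ) - ∑ j, y j * (m₀ j : ℝ) := by
    rw [← Finset.sum_sub_distrib]
    exact Finset.sum_congr rfl fun j _ => by ring
  linarith

end Vale.Agent.P283.F647
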