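import Vale.Agent.P283.F647.Cpl

/-!
The compactness theorems for families of vectors.
-/

set_option linter.all false

namespace Vale.Agent.P283.F647

open Finset hiding val
open Vale.Agent.P283.H647
open Vale.Agent.P283.Z647

/-- The pairing of an exponent and a weight. -/
def pr {m : ℕ} (x a : Fin m → ℤ) : ℤ := ∑ k, x k * a k

section Pairing

variable {m : ℕ}

theorem pr_add (x y a : Fin m → ℤ) : pr (x + y) a = pr x a + pr y a := by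
  unfold pr
  rw [← Finset.sum_add_distrib]
  exact Finset.sum_congr rfl fun k _ => by simp only [Pi.add_apply]; ring

theorem pr_sub (x y a : Fin m → ℤ) : pr (x - y) a = pr x a - pr y a := by
  unfold pr
  rw [← Finset.sum_sub_distrib]
  exact Finset.sum_congr rfl fun k _ => by simp only [Pi.sub_apply]; ring

theorem pr_smul (c : ℤ) (x a : Fin m → ℤ) : pr (c • x) a = c * pr x a := by
  unfold pr
  rw [Finset.mul_sum]
  exact Finset.sum_congr rfl fun k _ => by simp only [Pi.smul_apply, smul_eq_mul]; ring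

theorem pr_zero_left (a : Fin m → ℤ) : pr 0 a = 0 := by simp [pr]

theorem pr_zero_right (x : Fin m → ℤ) : pr x 0 = 0 := by simp [pr]

theorem pr_comb (x a b : Fin m → ℤ) (c d : ℤ) :
    pr x (fun i => c * a i + d * b i) = c * pr x a + d * pr x b := by
  unfold pr
  rw [Finset.mul_sum, Finset.mul_sum, ← Finset.sum_add_distrib]
  exact Finset.sum_congr rfl fun k _ => by ring

theorem pr_single (k : Fin m) (a : Fin m → ℤ) : pr (Pi.single k 1) a = a k := by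
  unfold pr
  rw [Finset.sum_eq_single k]
  · simp
  · intro i _ hi; simp [Pi.single_eq_of_ne hi]
  · intro h; exact absurd (Finset.mem_univ _) h

/-- Pairing with a real combination. -/
theorem pr_real {ι : Type} [Fintype ι] {w : ι → Fin m → ℤ} {b : Fin m → ℤ} {c : ι → ℝ}
    (hb : ∀ k, (b k : ℝ) = ∑ j, c j * w j k) (x : Fin m → ℤ) :
    (pr x b : ℝ) = ∑ j, c j * pr x (w j) := by
  unfold pr
  push_cast
  simp only [hb, Finset.mul_sum]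
  rw [Finset.sum_comm]
  exact Finset.sum_congr rfl fun j _ => Finset.sum_congr rfl fun k _ => by ring

/-- The vector of pairings. -/
def prHom {ι : Type} (w : ι → Fin m → ℤ) : (Fin m → ℤ) →+ (ι → ℤ) where
  toFun u := fun j => pr u (w j)
  map_zero' := by funext j; simp [pr]
  map_add' u u' := by funext j; exact pr_add u u' (w j)

end Pairing

theorem hat_spec {m : ℕ} {ι : Type} {w : ι → Fin m → ℤ} {T : ι → ℤ} {κ : ι → ℕ}
    {ℓ : Fin m → ℤ} (h : ∀ j, pr ℓ (w j) ≤ T j + κ j) (j : ι) :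
    (((T j + κ j - pr ℓ (w j)).toNat : ℕ) : ℤ) = T j + κ j - pr ℓ (w j) :=
  Int.toNat_of_nonneg (by have := h j; omega)

theorem val_hat {m : ℕ} {ι : Type} [Fintype ι] {w : ι → Fin m → ℤ} {T : ι → ℤ} {κ : ι → ℕ}
    {ℓ : Fin m → ℤ} (h : ∀ j, pr ℓ (w j) ≤ T j + κ j) (c : ι → ℝ) :
    val 1 κ (fun j => (T j + κ j - pr ℓ (w j)).toNat) c =
      ∑ j, c j * ((pr ℓ (w j) : ℝ) - T j) := by
  unfold val
  refine Finset.sum_congr rfl fun j _ => ?_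
  have h1 : (((T j + κ j - pr ℓ (w j)).toNat : ℕ) : ℝ) = T j + κ j - pr ℓ (w j) := by
    have := congrArg (Int.cast : ℤ → ℝ) (hat_spec h j)
    push_cast at this
    exact this
  rw [h1]
  push_cast
  ring

/-- Arbitrary families, lower bounds at all positive combinations. -/
theorem cvx_vec {ι : Type} [Fintype ι] (κ : ι → ℕ) {ε : ℝ} (hε : 0 < ε) : ∃ k₀ : ℕ, 0 < k₀ ∧
    ∀ (m : ℕ) (w : ι → Fin m → ℤ) (Ls : Finset (Fin m → ℤ)) (T : ι → ℤ),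
      (∀ ℓ ∈ Ls, ∀ j, pr ℓ (w j) ≤ T j + κ j) →
      (∀ c : ι → ℝ, (∀ j, 0 < c j) → ∀ b : Fin m → ℤ, (∀ k, (b k : ℝ) = ∑ j, c j * w j k) →
        ∃ ℓ ∈ Ls, ε ≤ ∑ j, c j * ((pr ℓ (w j) : ℝ) - T j)) →
      ∀ k : ℕ, k₀ ∣ k → 0 < k → ∀ c : ι → ℝ, (∀ j, 0 < c j) →
        ∃ X : Fin m → ℤ, (∀ j, k * T j ≤ pr X (w j)) ∧
          ∃ ℓ ∈ Ls, ∑ j, c j * (pr X (w j) : ℝ) < k * ∑ j, c j * (pr ℓ (w j) : ℝ) := by
  classical
  obtain ⟨k₀, hk₀, hmain⟩ := cvx_fixed' 1 one_pos κ hε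
  refine ⟨k₀, hk₀, fun m w Ls T htop hh k hk hk0 c hc => ?_⟩
  obtain ⟨ℓ₀, hℓ₀, -⟩ := hh (fun _ => 1) (fun _ => one_pos) (fun k => ∑ j, w j k) (fun k => by
    push_cast; exact Finset.sum_congr rfl fun j _ => (one_mul _).symm)
  obtain ⟨E, hE1, hE2⟩ := hmain (Ls.image fun ℓ j => (T j + κ j - pr ℓ (w j)).toNat)
    (prHom w).range (by
      intro α hα β hβ
      obtain ⟨ℓ, hℓ, rfl⟩ := Finset.mem_image.1 hα
      obtain ⟨ℓ', hℓ', rfl⟩ := Finset.mem_image.1 hβ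
      refine ⟨ℓ' - ℓ, ?_⟩
      funext j
      show pr (ℓ' - ℓ) (w j) = _
      rw [pr_sub, hat_spec (htop ℓ hℓ), hat_spec (htop ℓ' hℓ')]
      ring) (by
      intro b hb hbM
      have hz : ∀ i, ∃ z : ℤ, (z : ℝ) = ∑ j, b j * w j i := by
        intro i
        obtain ⟨z, hz⟩ := hbM _ ⟨Pi.single i 1, rfl⟩
        refine ⟨z, ?_⟩
        rw [← hz]
        refine Finset.sum_congr rfl fun j _ => ?_
        show b j * ((pr (Pi.single i 1) (w j) : ℤ) : ℝ) = b j * (w j i : ℝ)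
        rw [pr_single]
      choose z hz using hz
      obtain ⟨ℓ, hℓ, hle⟩ := hh b hb z hz
      refine ⟨_, Finset.mem_image_of_mem _ hℓ, ?_⟩
      rw [val_hat (htop ℓ hℓ)]
      simpa using hle) k hk hk0
  obtain ⟨e, he, α, hα, hlt⟩ := hE2 c hc
  obtain ⟨ℓ, hℓ, rfl⟩ := Finset.mem_image.1 hα
  rw [val_hat (htop ℓ hℓ)] at hlt
  obtain ⟨p, hp⟩ := hE1 e he _ (Finset.mem_image_of_mem _ hℓ)
  have hX : ∀ j, pr (p + (k : ℤ) • ℓ) (w j) = e j + k * T j := by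
    intro j
    have h1 := congrFun hp j
    have h2 : pr p (w j) = (e j : ℤ) - k * κ j + k * ((1 : ℕ) * ((T j + κ j - pr ℓ (w j)).toNat : ℕ)) := h1
    rw [hat_spec (htop ℓ hℓ)] at h2
    rw [pr_add, pr_smul, h2]
    push_cast
    ring
  refine ⟨p + (k : ℤ) • ℓ, fun j => ?_, ℓ, hℓ, ?_⟩
  · rw [hX]
    have : (0 : ℤ) ≤ e j := by positivity
    omega
  · have h1 : ∑ j, c j * (pr (p + (k : ℤ) • ℓ) (w j) : ℝ) =
        ∑ j, (e j : ℝ) * c j + k * ∑ j, c j * (T j : ℝ) := by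
      rw [Finset.mul_sum, ← Finset.sum_add_distrib]
      refine Finset.sum_congr rfl fun j _ => ?_
      rw [hX]; push_cast; ring
    have h2 : (k : ℝ) * ∑ j, c j * ((pr ℓ (w j) : ℝ) - T j) =
        k * ∑ j, c j * (pr ℓ (w j) : ℝ) - k * ∑ j, c j * (T j : ℝ) := by
      rw [← mul_sub, ← Finset.sum_sub_distrib]
      congr 1
      exact Finset.sum_congr rfl fun j _ => by ring
    rw [h2] at hlt
    rw [h1]
    linarith

/-- Families with a positive relation. -/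
theorem cpl_vec {ι : Type} [Fintype ι] (κ : ι → ℕ) {ε : ℝ} (hε : 0 < ε) : ∃ k₀ : ℕ, 0 < k₀ ∧
    ∀ (m : ℕ) (w : ι → Fin m → ℤ) (V : AddSubgroup (Fin m → ℤ)) (Ls : Finset (Fin m → ℤ))
      (T : ι → ℤ), (∀ ℓ ∈ Ls, ∀ ℓ' ∈ Ls, ℓ - ℓ' ∈ V) →
      (∀ ℓ ∈ Ls, ∀ j, pr ℓ (w j) ≤ T j + κ j) →
      (∃ ρ : ι → ℝ, (∀ j, 0 < ρ j) ∧ ∀ u ∈ V, ∑ j, ρ j * (pr u (w j) : ℝ) = 0) →
      (∀ c : ι → ℝ, (∀ j, 0 < c j) → (∀ u ∈ V, ∃ z : ℤ, ∑ j, c j * (pr u (w j) : ℝ) = z) →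
        ¬ (∀ u ∈ V, ∑ j, c j * (pr u (w j) : ℝ) = 0) →
        ∃ ℓ ∈ Ls, ε ≤ ∑ j, c j * ((pr ℓ (w j) : ℝ) - T j)) →
      ∀ k : ℕ, k₀ ∣ k → 0 < k → ∀ c : ι → ℝ, (∀ j, 0 < c j) →
        (∃ (R : ℕ) (X : Fin m → ℤ), (∀ ℓ ∈ Ls, X - (R : ℤ) • ℓ ∈ V) ∧
          (∀ j, R * T j ≤ pr X (w j)) ∧
          ∃ ℓ ∈ Ls, ∑ j, c j * (pr X (w j) : ℝ) < R * ∑ j, c j * (pr ℓ (w j) : ℝ)) →
        ∃ X : Fin m → ℤ, (∀ ℓ ∈ Ls, X - (k : ℤ) • ℓ ∈ V) ∧ (∀ j, k * T j ≤ pr X (w j)) ∧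
          ∃ ℓ ∈ Ls, ∑ j, c j * (pr X (w j) : ℝ) < k * ∑ j, c j * (pr ℓ (w j) : ℝ) := by
  classical
  obtain ⟨k₀, hk₀, hmain⟩ := cpl_fixed 1 one_pos κ hε
  refine ⟨k₀, hk₀, fun m w V Ls T hdiff htop hρ hh k hk hk0 c hc hX => ?_⟩
  obtain ⟨R, X, hXV, hXT, ℓ₀, hℓ₀, hXlt⟩ := hX
  have hval2 : ∀ (n : ℕ) (ℓ : Fin m → ℤ), (n : ℝ) * ∑ j, c j * ((pr ℓ (w j) : ℝ) - T j) =
      n * ∑ j, c j * (pr ℓ (w j) : ℝ) - n * ∑ j, c j * (T j : ℝ) := by
    intro n ℓ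
    rw [← mul_sub, ← Finset.sum_sub_distrib]
    congr 1
    exact Finset.sum_congr rfl fun j _ => by ring
  obtain ⟨e, he, α, hα, hlt⟩ := hmain (Ls.image fun ℓ j => (T j + κ j - pr ℓ (w j)).toNat)
    (V.map (prHom w)) (by
      intro α hα β hβ
      obtain ⟨ℓ, hℓ, rfl⟩ := Finset.mem_image.1 hα
      obtain ⟨ℓ', hℓ', rfl⟩ := Finset.mem_image.1 hβ
      refine ⟨ℓ' - ℓ, hdiff ℓ' hℓ' ℓ hℓ, ?_⟩
      funext j
      show pr (ℓ' - ℓ) (w j) = _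
      rw [pr_sub, hat_spec (htop ℓ hℓ), hat_spec (htop ℓ' hℓ')]
      ring) (by
      obtain ⟨ρ, hρ1, hρ2⟩ := hρ
      refine ⟨ρ, hρ1, ?_⟩
      rintro _ ⟨u, hu, rfl⟩
      exact hρ2 u hu) (by
      intro b hb hbM hbO
      obtain ⟨ℓ, hℓ, hle⟩ := hh b hb (fun u hu => hbM _ ⟨u, hu, rfl⟩) (fun h0 => hbO (by
        rintro _ ⟨u, hu, rfl⟩
        exact h0 u hu))
      refine ⟨_, Finset.mem_image_of_mem _ hℓ, ?_⟩
      rw [val_hat (htop ℓ hℓ)]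
      simpa using hle) k hk hk0 c hc ⟨R, fun j => (pr X (w j) - R * T j).toNat, by
        intro α hα
        obtain ⟨ℓ, hℓ, rfl⟩ := Finset.mem_image.1 hα
        refine ⟨X - (R : ℤ) • ℓ, hXV ℓ hℓ, ?_⟩
        funext j
        show pr (X - (R : ℤ) • ℓ) (w j) = _
        rw [hat_spec (htop ℓ hℓ), Int.toNat_of_nonneg (by have := hXT j; omega), pr_sub, pr_smul]
        push_cast
        ring, _, Finset.mem_image_of_mem _ hℓ₀, by
        rw [val_hat (htop ℓ₀ hℓ₀), hval2]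
        have h1 : ∑ j, (((pr X (w j) - R * T j).toNat : ℕ) : ℝ) * c j =
            ∑ j, c j * (pr X (w j) : ℝ) - R * ∑ j, c j * (T j : ℝ) := by
          rw [Finset.mul_sum, ← Finset.sum_sub_distrib]
          refine Finset.sum_congr rfl fun j _ => ?_
          have h2 : (((pr X (w j) - R * T j).toNat : ℕ) : ℝ) = pr X (w j) - R * T j := by
            have h3 := Int.toNat_of_nonneg (a := pr X (w j) - R * T j)
              (by have := hXT j; omega)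
            have := congrArg (Int.cast : ℤ → ℝ) h3
            push_cast at this
            exact this
          rw [h2]; ring
        rw [h1]
        linarith⟩
  obtain ⟨ℓ, hℓ, rfl⟩ := Finset.mem_image.1 hα
  rw [val_hat (htop ℓ hℓ), hval2] at hlt
  obtain ⟨p, hpV, hp⟩ := he _ (Finset.mem_image_of_mem _ hℓ)
  have hX : ∀ j, pr (p + (k : ℤ) • ℓ) (w j) = e j + k * T j := by
    intro j
    have h1 := congrFun hp j
    have h2 : pr p (w j) = (e j : ℤ) - k * κ j + k * ((1 : ℕ) * ((T j + κ j - pr ℓ (w j)).toNat : ℕ)) := h1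
    rw [hat_spec (htop ℓ hℓ)] at h2
    rw [pr_add, pr_smul, h2]
    push_cast
    ring
  refine ⟨p + (k : ℤ) • ℓ, fun ℓ' hℓ' => ?_, fun j => ?_, ℓ, hℓ, ?_⟩
  · have h1 := V.add_mem hpV (V.zsmul_mem (hdiff ℓ hℓ ℓ' hℓ') (k : ℤ))
    have h2 : p + (k : ℤ) • (ℓ - ℓ') = p + (k : ℤ) • ℓ - (k : ℤ) • ℓ' := by
      rw [smul_sub]; abel
    rw [h2] at h1
    exact h1
  · rw [hX]
    have : (0 : ℤ) ≤ e j := by positivity
    omega
  · have h1 : ∑ j, c j * (pr (p + (k : ℤ) • ℓ) (w j) : ℝ) =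
        ∑ j, (e j : ℝ) * c j + k * ∑ j, c j * (T j : ℝ) := by
      rw [Finset.mul_sum, ← Finset.sum_add_distrib]
      refine Finset.sum_congr rfl fun j _ => ?_
      rw [hX]; push_cast; ring
    rw [h1]
    linarith

end Vale.Agent.P283.F647
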